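import Claimed.Agent.R309.S7.Sep

/-!
# Row 309, package S7-6: the setting `PS` when `B` has no cut point (Prop 7.4, first case).  Prefix `s7f_`.
Owner helper29.

`H = Γ`, `Y = C.X`, `ι = C.ι`, `I = range ι`, `adj (ι g) (ι (g s))`, `s ∈ S`.
`L_nocut` from `s7f_preconnected_of_not_cut`; `comp` from `hC.rightMove`; `nearPath` from `hC.nearPath`; `parab` is vacuous
(`I = range ι` is nonempty and disjoint from its complement); `K_conn` from `𝔖.closure_eq`.
-/

set_option autoImplicit false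

namespace Claimed.Agent.R309

open Filter Topology Set

variable {Γ : Type} [Group Γ] {𝔖 : GenSet Γ} {C : Cpt 𝔖}

/-- a point of `B` whose complement in `B` is not preconnected is a cut point in the sense of `Cpt.IsCut` -/
theorem s7f_preconnected_of_not_cut {x : C.X} (hx : x ∈ C.B) (h : ¬ C.IsCut x) :
    IsPreconnected (C.B \ {x}) := by
  by_contra hn
  apply h
  have hBc : IsClosed C.B := s7a_isClosed_B C
  replace hn : ¬ ∀ u v : Set C.X, IsOpen u → IsOpen v → C.B \ {x} ⊆ u ∪ v →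
      (C.B \ {x} ∩ u).Nonempty → (C.B \ {x} ∩ v).Nonempty → (C.B \ {x} ∩ (u ∩ v)).Nonempty := hn
  push Not at hn
  obtain ⟨u, v, hu, hv, hcov, ⟨y, hy, hyu⟩, ⟨z, hz, hzv⟩, hemp'⟩ := hn
  have hemp : ¬ (C.B \ {x} ∩ (u ∩ v)).Nonempty := by rw [hemp']; exact not_nonempty_empty
  -- U = (B \ {x}) ∩ u,  V = (B \ {x}) \ u
  refine ⟨y, z, hx, (C.B \ {x}) ∩ u, (C.B \ {x}) \ u, ?_, ?_, ?_, ?_, ⟨hy, hyu⟩, ⟨hz, ?_⟩⟩
  · -- U ∪ {x} = B \ v ∪ {x} is closed
    have : (C.B \ {x}) ∩ u ∪ {x} = (C.B \ v) ∪ {x} := by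
      ext w
      simp only [mem_union, mem_inter_iff, mem_diff, mem_singleton_iff]
      constructor
      · rintro (⟨⟨hw, hwx⟩, hwu⟩ | hw)
        · left
          refine ⟨hw, fun hwv => ?_⟩
          exact hemp ⟨w, ⟨hw, hwx⟩, hwu, hwv⟩
        · right; exact hw
      · rintro (⟨hw, hwv⟩ | hw)
        · by_cases hwx : w = x
          · right; exact hwx
          · left
            refine ⟨⟨hw, hwx⟩, ?_⟩
            rcases hcov ⟨hw, hwx⟩ with h1 | h1
            · exact h1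
            · exact absurd h1 hwv
        · right; exact hw
    rw [this]
    exact (hBc.sdiff hv).union isClosed_singleton
  · have : (C.B \ {x}) \ u ∪ {x} = (C.B \ u) ∪ {x} := by
      ext w
      simp only [mem_union, mem_diff, mem_singleton_iff]
      constructor
      · rintro (⟨⟨hw, _⟩, hwu⟩ | hw)
        · left; exact ⟨hw, hwu⟩
        · right; exact hw
      · rintro (⟨hw, hwu⟩ | hw)
        · by_cases hwx : w = x
          · right; exact hwx
          · left; exact ⟨⟨hw, hwx⟩, hwu⟩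
        · right; exact hw
    rw [this]
    exact (hBc.sdiff hu).union isClosed_singleton
  · exact disjoint_sdiff_right.mono_left inter_subset_right
  · exact inter_union_diff _ _
  · intro hzu
    exact hemp ⟨z, hz, hzu, hzv⟩

/-- the Cayley graph is connected -/
theorem s7f_cayley_conn (𝔖 : GenSet Γ) (u v : Γ) :
    Relation.ReflTransGen (fun a b => ∃ s ∈ 𝔖.S, b = a * s) u v := by
  have key : ∀ w : Γ, ∀ u : Γ, Relation.ReflTransGen (fun a b => ∃ s ∈ 𝔖.S, b = a * s) u (u * w) := by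
    intro w
    have hw : w ∈ Subgroup.closure (𝔖.S : Set Γ) := by rw [𝔖.closure_eq]; trivial
    induction hw using Subgroup.closure_induction with
    | mem x hx => exact fun u => Relation.ReflTransGen.single ⟨x, hx, rfl⟩
    | one => intro u; rw [mul_one]
    | mul x y _ _ hx hy =>
      intro u
      rw [← mul_assoc]
      exact (hx u).trans (hy (u * x))
    | inv x _ hx =>
      intro u
      -- reverse the path from `u x⁻¹` to `u`
      have hsymm : ∀ a b : Γ, Relation.ReflTransGen (fun a b => ∃ s ∈ 𝔖.S, b = a * s) a b →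
          Relation.ReflTransGen (fun a b => ∃ s ∈ 𝔖.S, b = a * s) b a := by
        intro a b hab
        induction hab with
        | refl => exact Relation.ReflTransGen.refl
        | tail _ hbc ih =>
          obtain ⟨s, hs, rfl⟩ := hbc
          exact Relation.ReflTransGen.head ⟨s⁻¹, 𝔖.inv_mem s hs, by simp⟩ ih
      have := hx (u * x⁻¹)
      rw [inv_mul_cancel_right] at this
      exact hsymm _ _ this
  have := key (u⁻¹ * v) u
  rwa [mul_inv_cancel_left] at this

theorem s7f_PS_of_noCut (hG : GroupHyp 𝔖) (hC : C.Good) (hd : Dim1 C.B) (hc : Cech0 C.B)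
    (h : ∀ p, ¬ C.IsCut p) : Nonempty PS := by
  classical
  refine ⟨{
    H := Γ
    Y := C.X
    ι := C.ι
    ι_inj := C.ι_inj
    ι_mul := C.ι_mul
    ι_isolated := C.ι_isolated
    ι_dense := C.ι_dense
    act_cont := C.act_cont
    L_conn := hC.conn
    L_nontriv := hC.nontriv
    L_nocut := fun x hx => s7f_preconnected_of_not_cut hx (h x)
    dim1 := hd
    cech0 := hc
    conv := hC.conv
    I := range C.ι
    adj := fun v w => ∃ g : Γ, ∃ s ∈ 𝔖.S, v = C.ι g ∧ w = C.ι (g * s)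
    I_smul := ?_
    adj_mem := ?_
    adj_symm := ?_
    adj_smul := ?_
    K_conn := ?_
    I_fin := ?_
    adj_fin := ?_
    I_alt := Or.inl rfl
    I_acc := ?_
    comp := ?_
    nearPath := ?_
    parab := ?_ }⟩
  · rintro g _ ⟨k, rfl⟩
    exact ⟨g * k, C.ι_mul g k⟩
  · rintro v w ⟨g, s, _, rfl, rfl⟩
    exact ⟨⟨g, rfl⟩, ⟨g * s, rfl⟩⟩
  · rintro v w ⟨g, s, hs, rfl, rfl⟩
    exact ⟨g * s, s⁻¹, 𝔖.inv_mem s hs, rfl, by simp⟩
  · rintro k v w ⟨g, s, hs, rfl, rfl⟩
    exact ⟨k * g, s, hs, (C.ι_mul k g).symm, by rw [mul_assoc, C.ι_mul k (g * s)]⟩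
  · rintro _ ⟨u, rfl⟩ _ ⟨v, rfl⟩
    have := s7f_cayley_conn 𝔖 u v
    exact Relation.ReflTransGen.lift C.ι (fun a b ⟨s, hs, hb⟩ => ⟨a, s, hs, rfl, by rw [hb]⟩) _ _ this
  · refine ⟨{C.ι 1}, ?_⟩
    rintro _ ⟨g, rfl⟩
    exact ⟨g, C.ι 1, Finset.mem_singleton_self _, by rw [← C.ι_mul, mul_one]⟩
  · refine ⟨𝔖.S.image (fun s => (C.ι 1, C.ι s)), ?_⟩
    rintro v w ⟨g, s, hs, rfl, rfl⟩
    exact ⟨g, (C.ι 1, C.ι s), Finset.mem_image.mpr ⟨s, hs, rfl⟩, by rw [← C.ι_mul, mul_one],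
      by rw [← C.ι_mul]⟩
  · intro x hx
    have hne : range C.ι \ {x} = range C.ι := by
      apply diff_singleton_eq_self
      exact hx
    rw [hne]
    exact C.ι_dense x
  · rintro _ ⟨k, rfl⟩
    have := hC.rightMove k
    refine this.congr ?_
    intro g
    rw [← C.ι_mul, dist_comm]
  · intro x hx W hW
    obtain ⟨V, hV, -, hVp⟩ := hC.nearPath x hx W hW
    refine ⟨V, hV, ?_⟩
    rintro _ ⟨⟨u, rfl⟩, huV⟩ _ ⟨⟨v, rfl⟩, hvV⟩
    have := hVp u v huV hvV
    exact Relation.ReflTransGen.lift C.ι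
      (fun a b ⟨ha, hb, s, hs, hbs⟩ => ⟨ha, hb, a, s, hs, rfl, by rw [hbs]⟩) _ _ this
  · intro hI
    exact absurd ⟨1, rfl⟩ (hI ⟨1, rfl⟩)

end Claimed.Agent.R309
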