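import Claimed.Agent.R309.Defs

/-!
# Row 309, package S7-5: permanence of `Dim1` and `Cech0`.  Prefix `s7e_`.  Pure topology, no group.
Owner helper29.

* closed subspace: extend the relatively open `U i` to open sets of `L`, add `Aᶜ`, refine, restrict (members inside `Aᶜ` restrict to `∅`;
  treat `n = 0`, i.e. `A` empty, separately).
* retract: pull the cover and the cocycle back by `r` (a nonempty triple intersection of preimages has nonempty image), refine, restrict to `A`.
-/

set_option autoImplicit false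

namespace Claimed.Agent.R309

open Filter Topology Set

theorem s7e_dim1_homeomorph {L L' : Type} [TopologicalSpace L] [TopologicalSpace L'] (e : L ≃ₜ L')
    (h : Dim1 L) : Dim1 L' := by
  intro n U hU hcov
  obtain ⟨m, Z, hZ, hZcov, hZU, hZ3⟩ := h n (fun i => e ⁻¹' U i)
    (fun i => (hU i).preimage e.continuous) (by rw [← preimage_iUnion, hcov, preimage_univ])
  refine ⟨m, fun a => e.symm ⁻¹' Z a, fun a => (hZ a).preimage e.symm.continuous, ?_, ?_, ?_⟩
  · rw [← preimage_iUnion, hZcov, preimage_univ]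
  · intro a
    obtain ⟨i, hi⟩ := hZU a
    refine ⟨i, fun x hx => ?_⟩
    have := hi hx
    simpa using this
  · intro a b c hab hbc hac
    rw [← preimage_inter, ← preimage_inter, hZ3 a b c hab hbc hac, preimage_empty]

theorem s7e_cech0_homeomorph {L L' : Type} [TopologicalSpace L] [TopologicalSpace L'] (e : L ≃ₜ L')
    (h : Cech0 L) : Cech0 L' := by
  intro n U d hU hcov hd0 hds hdc
  obtain ⟨m, Z, r, c, hZ, hZcov, hZU, hZc⟩ := h n (fun i => e ⁻¹' U i) d
    (fun i => (hU i).preimage e.continuous) (by rw [← preimage_iUnion, hcov, preimage_univ])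
    hd0 hds (by
      rintro i j k ⟨x, ⟨hx1, hx2⟩, hx3⟩
      exact hdc i j k ⟨e x, ⟨hx1, hx2⟩, hx3⟩)
  refine ⟨m, fun a => e.symm ⁻¹' Z a, r, c, fun a => (hZ a).preimage e.symm.continuous, ?_, ?_, ?_⟩
  · rw [← preimage_iUnion, hZcov, preimage_univ]
  · intro a x hx
    have := hZU a hx
    simpa using this
  · rintro a b ⟨x, hx1, hx2⟩
    exact hZc a b ⟨e.symm x, hx1, hx2⟩

theorem s7e_dim1_closed {L : Type} [TopologicalSpace L] (A : Set L) (hA : IsClosed A) (h : Dim1 L) :
    Dim1 A := by
  intro n U hU hcov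
  rcases Nat.eq_zero_or_pos n with hn | hn
  · subst hn
    refine ⟨0, fun a => a.elim0, fun a => a.elim0, ?_, fun a => a.elim0, fun a => a.elim0⟩
    rw [← hcov]
    simp
  · have hU' : ∀ i, ∃ V : Set L, IsOpen V ∧ Subtype.val ⁻¹' V = U i := fun i =>
      isOpen_induced_iff.mp (hU i)
    choose V hVo hVU using hU'
    obtain ⟨m, Z, hZ, hZcov, hZU, hZ3⟩ := h (n + 1) (Fin.cons Aᶜ V)
      (by
        intro i
        refine Fin.cases ?_ (fun j => ?_) i
        · simpa using hA.isOpen_compl
        · simpa using hVo j)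
      (by
        rw [eq_univ_iff_forall]
        intro x
        rw [mem_iUnion]
        by_cases hx : x ∈ A
        · have : (⟨x, hx⟩ : A) ∈ ⋃ i, U i := by rw [hcov]; trivial
          obtain ⟨i, hi⟩ := mem_iUnion.mp this
          refine ⟨i.succ, ?_⟩
          rw [Fin.cons_succ]
          rw [← hVU i] at hi
          exact hi
        · exact ⟨0, by simpa using hx⟩)
    refine ⟨m, fun a => Subtype.val ⁻¹' Z a, fun a => (hZ a).preimage continuous_subtype_val,
      ?_, ?_, ?_⟩
    · rw [← preimage_iUnion, hZcov, preimage_univ]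
    · intro a
      obtain ⟨i, hi⟩ := hZU a
      revert hi
      refine Fin.cases ?_ (fun j => ?_) i
      · intro hi
        refine ⟨⟨0, hn⟩, fun x hx => ?_⟩
        have := hi hx
        rw [Fin.cons_zero] at this
        exact absurd x.2 this
      · intro hi
        refine ⟨j, fun x hx => ?_⟩
        have := hi hx
        rw [Fin.cons_succ] at this
        rw [← hVU j]
        exact this
    · intro a b c hab hbc hac
      rw [← preimage_inter, ← preimage_inter, hZ3 a b c hab hbc hac, preimage_empty]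

theorem s7e_cech0_retract {L : Type} [TopologicalSpace L] (A : Set L) (r : L → A)
    (hr : Continuous r) (hid : ∀ a : A, r a = a) (h : Cech0 L) : Cech0 A := by
  intro n U d hU hcov hd0 hds hdc
  obtain ⟨m, Z, ρ, c, hZ, hZcov, hZU, hZc⟩ := h n (fun i => r ⁻¹' U i) d
    (fun i => (hU i).preimage hr) (by rw [← preimage_iUnion, hcov, preimage_univ])
    hd0 hds (by
      rintro i j k ⟨x, ⟨hx1, hx2⟩, hx3⟩
      exact hdc i j k ⟨r x, ⟨hx1, hx2⟩, hx3⟩)
  refine ⟨m, fun a => Subtype.val ⁻¹' Z a, ρ, c,
    fun a => (hZ a).preimage continuous_subtype_val, ?_, ?_, ?_⟩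
  · rw [← preimage_iUnion, hZcov, preimage_univ]
  · intro a x hx
    have := hZU a hx
    rw [mem_preimage, hid] at this
    exact this
  · rintro a b ⟨x, hx1, hx2⟩
    exact hZc a b ⟨x.1, hx1, hx2⟩

/-- `A ⊆ B ⊆ X`: `A` as a subspace of `B` and as a subspace of `X` -/
def s7eHomeo {X : Type} [TopologicalSpace X] {A B : Set X} (hAB : A ⊆ B) :
    ({x : B | x.1 ∈ A} : Set B) ≃ₜ A where
  toFun y := ⟨y.1.1, y.2⟩
  invFun x := ⟨⟨x.1, hAB x.2⟩, x.2⟩
  left_inv _ := rfl
  right_inv _ := rfl
  continuous_toFun := by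
    apply Continuous.subtype_mk
    exact continuous_subtype_val.comp continuous_subtype_val
  continuous_invFun := by
    apply Continuous.subtype_mk
    apply Continuous.subtype_mk
    exact continuous_subtype_val

/-- version for subsets `A ⊆ B` of an ambient space (the form used in S7) -/
theorem s7e_dim1_subset {X : Type} [TopologicalSpace X] {A B : Set X} (hAB : A ⊆ B)
    (hA : IsClosed A) (h : Dim1 B) : Dim1 A :=
  s7e_dim1_homeomorph (s7eHomeo hAB)
    (s7e_dim1_closed _ (hA.preimage continuous_subtype_val) h)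

theorem s7e_cech0_subset {X : Type} [TopologicalSpace X] {A B : Set X} (hAB : A ⊆ B)
    (r : X → X) (hr : ContinuousOn r B) (hm : MapsTo r B A) (hid : ∀ x ∈ A, r x = x)
    (h : Cech0 B) : Cech0 A := by
  refine s7e_cech0_homeomorph (s7eHomeo hAB)
    (s7e_cech0_retract _ (fun x : B => ⟨⟨r x.1, hAB (hm x.2)⟩, hm x.2⟩) ?_ ?_ h)
  · apply Continuous.subtype_mk
    apply Continuous.subtype_mk
    exact continuousOn_iff_continuous_restrict.mp hr
  · intro a
    exact Subtype.ext (Subtype.ext (hid a.1.1 a.2))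

end Claimed.Agent.R309
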