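import Claimed.Agent.R309.S7.Retract
import Claimed.Agent.R309.S7.TopLemmas
import Claimed.Agent.R309.S7.NoCut

/-!
# Row 309, package S7-7: the setting `PS` for a block (Prop 7.4, second case) and the interface `I_block`.  Prefix `s7g`.  Owner helper29.  SORRY FREE (modulo the other S7 files).

Data: `a, b` adjacent cut points (exist: `s7a_exists_ne`, `s7a_exists_adj`), `p₀ := a`, `R := star a b`, `L := closure R`, `Hs := C.stab R`,
`H := ↥Hs`, `Yset := C.ι '' Hs ∪ L`, `Y := ↥Yset`, `ι h := ⟨C.ι h, _⟩`, `I := R` (inside `Y`), `adj` := `adjK a` restricted to `R`.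
* `s7g_Yset_eq`: `closure (ι '' Hs) = ι '' Hs ∪ L`.  (⊆) a limit `y ∈ B` of `ι h_n`, `h_n ∈ Hs` distinct: `dist (ι h_n) (h_n a) → 0` (`s7c_cut_comp`), `h_n a ∈ R`.
  (⊇) `p ∈ R`: `s7a_star_stab_infinite` gives distinct `h_n ∈ Hs` fixing `p`, `dist (ι h_n) p → 0`.
* `(range ι)ᶜ` in `Y` is homeomorphic to `↥L`: use `s7e_*_homeomorph`; `Dim1 L` by `s7e_dim1_subset`, `Cech0 L` by `s7e_cech0_subset` + `s7d_retraction`.
* `comp`: restrict `s7c_cut_comp` along the injection `Hs → Γ` (`Function.Injective.tendsto_cofinite`).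
* `nearPath`: `s7c_nearPathK` + `s7b_proj_path` + `s7a_proj_of_mem`.   * `parab`: `s7a_star_stab_infinite` (take `k ≠ 1`) + `s7c_cut_parab`.
-/

set_option autoImplicit false

namespace Claimed.Agent.R309

open Filter Topology Set

variable {Γ : Type} [Group Γ] {𝔖 : GenSet Γ} {C : Cpt 𝔖}

theorem s7g_Yset_eq (hG : GroupHyp 𝔖) (hC : C.Good) (hT : C.CutTree) {a b : C.X} (h : C.Adj a b) :
    closure (C.ι '' (C.stab (C.star a b) : Set Γ)) =
      C.ι '' (C.stab (C.star a b) : Set Γ) ∪ closure (C.star a b) := by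
  apply Subset.antisymm
  · intro y hy
    by_cases hyr : y ∈ range C.ι
    · obtain ⟨g, rfl⟩ := hyr
      left
      have := mem_closure_iff.mp hy _ (C.ι_isolated g) (mem_singleton _)
      obtain ⟨z, hz1, hz2⟩ := this
      rw [mem_singleton_iff] at hz1
      rwa [hz1] at hz2
    · right
      rw [Metric.mem_closure_iff]
      intro ε hε
      have hcomp := s7c_cut_comp hG hC hT h.1
      have hfin : {g : Γ | ε / 2 ≤ dist (C.ι g) (g • a)}.Finite := by
        have := (Metric.tendsto_nhds.mp hcomp) (ε / 2) (by positivity)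
        rw [Filter.eventually_cofinite] at this
        refine this.subset ?_
        intro g hg
        simp only [mem_ofPred_eq, Real.dist_eq, sub_zero, not_lt] at hg ⊢
        exact hg.trans (le_abs_self _)
      set F := {g : Γ | ε / 2 ≤ dist (C.ι g) (g • a)} with hF
      have hopen : IsOpen (Metric.ball y (ε / 2) \ C.ι '' F) :=
        Metric.isOpen_ball.sdiff (hfin.image _).isClosed
      have hymem : y ∈ Metric.ball y (ε / 2) \ C.ι '' F := by
        refine ⟨Metric.mem_ball_self (by positivity), ?_⟩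
        rintro ⟨g, -, rfl⟩
        exact hyr ⟨g, rfl⟩
      obtain ⟨z, ⟨hz1, hz2⟩, k, hk, rfl⟩ := mem_closure_iff.mp hy _ hopen hymem
      have hkF : k ∉ F := fun hkF => hz2 ⟨k, hkF, rfl⟩
      refine ⟨k • a, (hk a).2 (s7a_star_mem h).1, ?_⟩
      have h1 : dist (C.ι k) (k • a) < ε / 2 := by
        simpa [hF] using hkF
      have h2 : dist y (C.ι k) < ε / 2 := by
        rw [dist_comm]; exact hz1
      calc dist y (k • a) ≤ dist y (C.ι k) + dist (C.ι k) (k • a) := dist_triangle _ _ _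
        _ < ε := by linarith
  · apply union_subset subset_closure
    apply closure_minimal _ isClosed_closure
    intro p hp
    rw [Metric.mem_closure_iff]
    intro ε hε
    have hcomp := s7c_cut_comp hG hC hT hp.1
    have hfin : {g : Γ | ε ≤ dist (C.ι g) (g • p)}.Finite := by
      have := (Metric.tendsto_nhds.mp hcomp) ε hε
      rw [Filter.eventually_cofinite] at this
      refine this.subset ?_
      intro g hg
      simp only [mem_ofPred_eq, Real.dist_eq, sub_zero, not_lt] at hg ⊢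
      exact hg.trans (le_abs_self _)
    obtain ⟨k, hk, hkn⟩ := (s7a_star_stab_infinite hC hT h hp).exists_notMem_finite hfin
    refine ⟨C.ι k, ⟨k, hk.1, rfl⟩, ?_⟩
    have : dist (C.ι k) (k • p) < ε := by simpa using hkn
    rw [hk.2] at this
    rwa [dist_comm]

/-! ### the space `Y = ι '' H ∪ L` -/

/-- the underlying set of `Y` -/
def s7gY (C : Cpt 𝔖) (R : Set C.X) : Set C.X := C.ι '' (C.stab R : Set Γ) ∪ closure R

theorem s7g_smul_mem (R : Set C.X) (k : C.stab R) {y : C.X} (hy : y ∈ s7gY C R) :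
    (k : Γ) • y ∈ s7gY C R := by
  rcases hy with ⟨g, hg, rfl⟩ | hy
  · left
    exact ⟨k * g, (C.stab R).mul_mem k.2 hg, C.ι_mul _ _⟩
  · right
    exact map_mem_closure (C.act_cont k) hy (fun c hc => (k.2 c).2 hc)

/-- the action of `H = stab R` on `Y` -/
@[reducible] def s7gAct (C : Cpt 𝔖) (R : Set C.X) : MulAction (C.stab R) (s7gY C R) where
  smul k y := ⟨(k : Γ) • y.1, s7g_smul_mem R k y.2⟩
  one_smul y := Subtype.ext (one_smul Γ y.1)
  mul_smul k k' y := Subtype.ext (mul_smul (k : Γ) (k' : Γ) y.1)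

/-- the embedding of `H` in `Y` -/
def s7gι (C : Cpt 𝔖) (R : Set C.X) (k : C.stab R) : s7gY C R := ⟨C.ι k, Or.inl ⟨k, k.2, rfl⟩⟩

theorem s7g_compl_range (R : Set C.X) (hR : closure R ⊆ C.B) :
    ((range (s7gι C R))ᶜ : Set (s7gY C R)) = {y | y.1 ∈ closure R} := by
  ext y
  simp only [mem_compl_iff, mem_range, mem_ofPred_eq]
  constructor
  · intro hy
    rcases y.2 with ⟨g, hg, hgy⟩ | hy'
    · exact absurd ⟨⟨g, hg⟩, Subtype.ext hgy⟩ hy
    · exact hy'
  · rintro hy ⟨k, rfl⟩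
    exact hR hy ⟨k, rfl⟩

theorem s7g_image_L (R : Set C.X) :
    (Subtype.val '' ({y | y.1 ∈ closure R} : Set (s7gY C R))) = closure R := by
  ext x
  constructor
  · rintro ⟨y, hy, rfl⟩; exact hy
  · intro hx; exact ⟨⟨x, Or.inr hx⟩, hx, rfl⟩

/-- `L` inside `Y` is homeomorphic to `L` inside `X` -/
def s7gHomeo (C : Cpt 𝔖) (R : Set C.X) :
    (closure R : Set C.X) ≃ₜ ({y | y.1 ∈ closure R} : Set (s7gY C R)) where
  toFun x := ⟨⟨x.1, Or.inr x.2⟩, x.2⟩
  invFun y := ⟨y.1.1, y.2⟩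
  left_inv _ := rfl
  right_inv _ := rfl
  continuous_toFun := by
    apply Continuous.subtype_mk
    apply Continuous.subtype_mk
    exact continuous_subtype_val
  continuous_invFun := by
    apply Continuous.subtype_mk
    exact continuous_subtype_val.comp continuous_subtype_val

/-- lifting a path of `X` with vertices in `R` to `Y` -/
theorem s7g_lift_path (R : Set C.X) (r : C.X → C.X → Prop) (hr : ∀ x y, r x y → y ∈ R)
    {u v : C.X} (hp : Relation.ReflTransGen r u v) (hu : u ∈ s7gY C R) :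
    ∃ hv : v ∈ s7gY C R,
      Relation.ReflTransGen (fun x y : s7gY C R => r x.1 y.1) ⟨u, hu⟩ ⟨v, hv⟩ := by
  induction hp with
  | refl => exact ⟨hu, Relation.ReflTransGen.refl⟩
  | tail _ hbc ih =>
    obtain ⟨hb, hpath⟩ := ih
    exact ⟨Or.inr (subset_closure (hr _ _ hbc)), hpath.tail hbc⟩

theorem s7g_PS_of_adj (hG : GroupHyp 𝔖) (hC : C.Good) (hd : Dim1 C.B) (hc : Cech0 C.B)
    (hT : C.CutTree) {a b : C.X} (h : C.Adj a b) : Nonempty PS := by
  classical
  set R := C.star a b with hRdef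
  have hLB : closure R ⊆ C.B := s7d_L_subset hC
  have hYeq : closure (C.ι '' (C.stab R : Set Γ)) = s7gY C R := s7g_Yset_eq hG hC hT h
  have hYclosed : IsClosed (s7gY C R) := hYeq ▸ isClosed_closure
  have : CompactSpace (s7gY C R) := isCompact_iff_compactSpace.mp hYclosed.isCompact
  let _ : MulAction (C.stab R) (s7gY C R) := s7gAct C R
  have hsmul : ∀ (k : C.stab R) (y : s7gY C R), (k • y).1 = (k : Γ) • y.1 := fun _ _ => rfl
  have hcompl := s7g_compl_range R hLB
  have hRY : ∀ x ∈ R, x ∈ s7gY C R := fun x hx => Or.inr (subset_closure hx)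
  have hind : Topology.IsInducing (Subtype.val : s7gY C R → C.X) := Topology.IsInducing.subtypeVal
  obtain ⟨r, hrc, hrm, hrid, -⟩ := s7d_retraction hG hC hT h
  refine ⟨{
    H := C.stab R
    Y := s7gY C R
    ι := s7gι C R
    ι_inj := ?_
    ι_mul := ?_
    ι_isolated := ?_
    ι_dense := ?_
    act_cont := ?_
    L_conn := ?_
    L_nontriv := ?_
    L_nocut := ?_
    dim1 := ?_
    cech0 := ?_
    conv := ?_
    I := {y | y.1 ∈ R}
    adj := fun v w => v.1 ∈ R ∧ w.1 ∈ R ∧ C.adjK a v.1 w.1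
    I_smul := ?_
    adj_mem := ?_
    adj_symm := ?_
    adj_smul := ?_
    K_conn := ?_
    I_fin := ?_
    adj_fin := ?_
    I_alt := ?_
    I_acc := ?_
    comp := ?_
    nearPath := ?_
    parab := ?_ }⟩
  · -- ι_inj
    intro k k' hkk
    exact Subtype.ext (C.ι_inj (congrArg Subtype.val hkk))
  · -- ι_mul
    intro g k
    exact Subtype.ext (C.ι_mul _ _)
  · -- ι_isolated
    intro k
    have : ({s7gι C R k} : Set (s7gY C R)) = Subtype.val ⁻¹' {C.ι k} := by
      ext y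
      simp only [mem_singleton_iff, mem_preimage]
      exact ⟨fun hy => by rw [hy]; rfl, fun hy => Subtype.ext hy⟩
    rw [this]
    exact (C.ι_isolated k).preimage continuous_subtype_val
  · -- ι_dense
    intro y
    rw [closure_subtype]
    have : (Subtype.val '' range (s7gι C R)) = C.ι '' (C.stab R : Set Γ) := by
      ext x
      constructor
      · rintro ⟨_, ⟨k, rfl⟩, rfl⟩; exact ⟨k, k.2, rfl⟩
      · rintro ⟨g, hg, rfl⟩; exact ⟨_, ⟨⟨g, hg⟩, rfl⟩, rfl⟩
    rw [this, hYeq]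
    exact y.2
  · -- act_cont
    intro k
    apply Continuous.subtype_mk
    exact (C.act_cont k).comp continuous_subtype_val
  · -- L_conn
    rw [hcompl]
    have hconn := s7d_L_connected hG hC hT h
    refine ⟨?_, ?_⟩
    · obtain ⟨x, hx⟩ := hconn.nonempty
      exact ⟨⟨x, Or.inr hx⟩, hx⟩
    · rw [← hind.isPreconnected_image, s7g_image_L]
      exact hconn.isPreconnected
  · -- L_nontriv
    rw [hcompl]
    obtain ⟨x, hx, y, hy, hxy⟩ := s7d_L_nontrivial h
    exact ⟨⟨x, Or.inr hx⟩, hx, ⟨y, Or.inr hy⟩, hy, fun he => hxy (congrArg Subtype.val he)⟩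
  · -- L_nocut
    rw [hcompl]
    intro x hx
    rw [← hind.isPreconnected_image]
    have : (Subtype.val '' (({y | y.1 ∈ closure R} : Set (s7gY C R)) \ {x})) =
        closure R \ {x.1} := by
      ext z
      constructor
      · rintro ⟨y, ⟨hy, hyx⟩, rfl⟩
        exact ⟨hy, fun he => hyx (Subtype.ext he)⟩
      · rintro ⟨hz, hzx⟩
        exact ⟨⟨z, Or.inr hz⟩, ⟨hz, fun he => hzx (congrArg Subtype.val he)⟩, rfl⟩
    rw [this]
    exact s7d_nocut hG hC hT h x.1 hx
  · -- dim1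
    rw [hcompl]
    exact s7e_dim1_homeomorph (s7gHomeo C R) (s7e_dim1_subset hLB isClosed_closure hd)
  · -- cech0
    rw [hcompl]
    exact s7e_cech0_homeomorph (s7gHomeo C R) (s7e_cech0_subset hLB r hrc hrm hrid hc)
  · -- conv
    intro g x y hx hy hgx hgy K hK hyK
    rw [hcompl] at hx hy
    have h1 : Tendsto (fun n => C.ι (g n : Γ)) atTop (𝓝 x.1) :=
      (continuous_subtype_val.tendsto x).comp hgx
    have h2 : Tendsto (fun n => C.ι ((g n : Γ))⁻¹) atTop (𝓝 y.1) :=
      (continuous_subtype_val.tendsto y).comp hgy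
    have h3 := hC.conv (fun n => (g n : Γ)) x.1 y.1 (hLB hx) (hLB hy) h1 h2 (Subtype.val '' K)
      (hK.image continuous_subtype_val) (by
        rintro ⟨z, hz, hzy⟩
        exact hyK (Subtype.ext hzy ▸ hz))
    rw [Metric.tendstoUniformlyOn_iff] at h3 ⊢
    intro ε hε
    filter_upwards [h3 ε hε] with n hn z hz
    exact hn z.1 ⟨z, hz, rfl⟩
  · -- I_smul
    intro k w hw
    exact (k.2 w.1).2 hw
  · -- adj_mem
    intro v w hvw
    exact ⟨hvw.1, hvw.2.1⟩
  · -- adj_symm
    intro v w hvw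
    exact ⟨hvw.2.1, hvw.1, s7b_adjK_symm hvw.2.2⟩
  · -- adj_smul
    intro k v w hvw
    exact ⟨(k.2 v.1).2 hvw.1, (k.2 w.1).2 hvw.2.1, s7b_adjK_smul (k : Γ) hvw.2.2⟩
  · -- K_conn
    intro v hv w hw
    have hp := s7b_K_conn hC hT h h.1 hv hw
    obtain ⟨hw', hpath⟩ := s7g_lift_path R _ (fun x y hxy => hxy.2.1) hp v.2
    exact hpath
  · -- I_fin
    obtain ⟨F, hF, hFc⟩ := s7b_K_vert_fin hC hT h h.1
    refine ⟨F.subtype (· ∈ s7gY C R), ?_⟩
    intro w hw
    obtain ⟨k, hk, v, hv, hwv⟩ := hFc w.1 hw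
    exact ⟨⟨k, hk⟩, ⟨v, hRY v (hF v hv)⟩, Finset.mem_subtype.mpr hv, Subtype.ext hwv⟩
  · -- adj_fin
    obtain ⟨F, hF, hFc⟩ := s7b_K_edge_fin hC hT h h.1
    have hfin : {p : s7gY C R × s7gY C R | (p.1.1, p.2.1) ∈ F}.Finite := by
      apply Set.Finite.preimage (f := fun p : s7gY C R × s7gY C R => (p.1.1, p.2.1)) _
        F.finite_toSet
      intro p _ q _ hpq
      simp only [Prod.mk.injEq] at hpq
      exact Prod.ext (Subtype.ext hpq.1) (Subtype.ext hpq.2)
    refine ⟨hfin.toFinset, ?_⟩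
    intro v w hvw
    obtain ⟨k, hk, e, he, hve, hwe⟩ := hFc v.1 w.1 hvw.1 hvw.2.1 hvw.2.2
    refine ⟨⟨k, hk⟩, (⟨e.1, hRY _ (hF e he).1⟩, ⟨e.2, hRY _ (hF e he).2⟩), ?_, Subtype.ext hve,
      Subtype.ext hwe⟩
    rw [Set.Finite.mem_toFinset]
    exact he
  · -- I_alt
    right
    rw [hcompl]
    intro y hy
    exact subset_closure hy
  · -- I_acc
    rw [hcompl]
    intro x hx
    rw [closure_subtype]
    have : (Subtype.val '' (({y | y.1 ∈ R} : Set (s7gY C R)) \ {x})) = R \ {x.1} := by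
      ext z
      constructor
      · rintro ⟨y, ⟨hy, hyx⟩, rfl⟩
        exact ⟨hy, fun he => hyx (Subtype.ext he)⟩
      · rintro ⟨hz, hzx⟩
        exact ⟨⟨z, hRY z hz⟩, ⟨hz, fun he => hzx (congrArg Subtype.val he)⟩, rfl⟩
    rw [this]
    exact s7d_acc hG hC hT h x.1 hx
  · -- comp
    intro w hw
    have h1 := s7c_cut_comp hG hC hT (p := w.1) hw.1
    have h2 := h1.comp (Subtype.val_injective (p := (· ∈ C.stab R))).tendsto_cofinite
    refine h2.congr ?_
    intro k
    simp only [Function.comp]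
    rw [dist_comm]
    rfl
  · -- nearPath
    rw [hcompl]
    intro x hx W hW
    rw [nhds_subtype_eq_comap, Filter.mem_comap] at hW
    obtain ⟨W', hW', hWW⟩ := hW
    obtain ⟨V', hV', -, hVp⟩ := s7c_nearPathK hG hC hT h.1 x.1 (hLB hx) W' hW'
    refine ⟨Subtype.val ⁻¹' V', ?_, ?_⟩
    · rw [nhds_subtype_eq_comap]
      exact Filter.preimage_mem_comap hV'
    · rintro v ⟨hvI, hvV⟩ w ⟨hwI, hwV⟩
      have hp := hVp v.1 w.1 hvI.1 hwI.1 hvV hwV
      have hp2 := s7b_proj_path hC hT h W' hp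
      rw [s7a_proj_of_mem hC.conn h hvI, s7a_proj_of_mem hC.conn h hwI] at hp2
      obtain ⟨hw', hpath⟩ := s7g_lift_path R _ (fun x y hxy => hxy.2.2.2.1) hp2 v.2
      exact Relation.ReflTransGen.mono (fun p q hpq =>
        ⟨hWW hpq.1, hWW hpq.2.1, hpq.2.2.1, hpq.2.2.2.1, hpq.2.2.2.2⟩) _ _ hpath
  · -- parab
    rw [hcompl]
    intro _ p hp
    have hinf := s7a_star_stab_infinite hC hT h hp
    obtain ⟨k, hk, hk1⟩ := hinf.exists_notMem_finite (finite_singleton (1 : Γ))
    refine ⟨⟨k, hk.1⟩, Subtype.ext hk.2, ?_⟩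
    intro z hz
    rw [tendsto_subtype_rng]
    have := s7c_cut_parab hG hC hT hp.1 (h := k) (by simpa using hk1) hk.2 z.1 (hLB hz)
    refine this.congr ?_
    intro j
    rfl

/-- **Interface `I_block` of `ps_glue`.** -/
theorem s7g_I_block (hG : GroupHyp 𝔖) (hC : C.Good) (hd : Dim1 C.B) (hc : Cech0 C.B)
    (hT : C.CutTree) : Nonempty PS := by
  by_cases h : ∃ p, C.IsCut p
  · obtain ⟨p, hp⟩ := h
    obtain ⟨q, hq, hne⟩ := s7a_exists_ne hC hp
    obtain ⟨c, -, hc'⟩ := s7a_exists_adj hC.conn hT hp hq hne.symm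
    exact s7g_PS_of_adj hG hC hd hc hT hc'
  · exact s7f_PS_of_noCut hG hC hd hc (fun p hp => h ⟨p, hp⟩)

end Claimed.Agent.R309
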