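import Claimed.Agent.R309.Defs

/-!
# Row 309, S7 (Sec 7 of the paper, `blocks.tex`): definitions.   Owner: helper29.

The tree of Prop 6.7 is used only through the set `P` of cut points with its separation relation
(`Cpt.CutTree`): tree vertices outside `P` are the *stars* (maximal sets of pairwise adjacent cut points).
`R = star a₀ b₀` is the chosen star, `H = stab R`, `proj R` the projection `π : P → R`
(`π p` = the gate of `p`: the point of `R` that separates `p` from the rest of `R`),
`adjK p₀` the graph `K*` (consecutive cut points on the translates of the intervals `[p₀, s p₀]`).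
-/

set_option autoImplicit false

namespace Claimed.Agent.R309

open Filter Topology Set

variable {Γ : Type} [Group Γ] {𝔖 : GenSet Γ} (C : Cpt 𝔖)

/-- the cut points separating `a` from `b` -/
def Cpt.Sp (a b : C.X) : Set C.X := {q | C.SepBy q a b}

/-- closed interval -/
def Cpt.Ic (a b : C.X) : Set C.X := C.Sp a b ∪ {a, b}

/-- adjacent cut points -/
def Cpt.Adj (a b : C.X) : Prop := C.IsCut a ∧ C.IsCut b ∧ a ≠ b ∧ ∀ q, ¬ C.SepBy q a b

/-- the star of a pair -/
def Cpt.star (a b : C.X) : Set C.X :=
  {c | C.IsCut c ∧ (∀ q, ¬ C.SepBy q c a) ∧ ∀ q, ¬ C.SepBy q c b}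

/-- `c` is the gate of `p` in `R` -/
def Cpt.IsGate (R : Set C.X) (p c : C.X) : Prop :=
  c ∈ R ∧ (p = c ∨ ∀ c' ∈ R, c' ≠ c → C.SepBy c p c')

open Classical in
/-- the projection `π` (junk value `p` when there is no gate) -/
noncomputable def Cpt.proj (R : Set C.X) (p : C.X) : C.X :=
  if h : ∃ c, C.IsGate R p c then h.choose else p

/-- the graph `K*` -/
def Cpt.adjK (p₀ u v : C.X) : Prop :=
  C.Adj u v ∧ ∃ g : Γ, ∃ s ∈ 𝔖.S,
    u ∈ C.Ic (g • p₀) ((g * s) • p₀) ∧ v ∈ C.Ic (g • p₀) ((g * s) • p₀)

/-- setwise stabiliser -/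
def Cpt.stab (R : Set C.X) : Subgroup Γ where
  carrier := {h | ∀ c, h • c ∈ R ↔ c ∈ R}
  mul_mem' := by
    intro a b ha hb c
    rw [mul_smul]
    exact (ha _).trans (hb c)
  one_mem' := by
    intro c
    rw [one_smul]
  inv_mem' := by
    intro a ha c
    have := ha (a⁻¹ • c)
    rw [smul_inv_smul] at this
    exact this.symm

end Claimed.Agent.R309
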