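import Claimed.Agent.R309.S7.Sep

/-!
# Row 309, package S7-2: the graphs `K*` and `K` (Lemma 7.1 `block:graph`, 2nd half of Lemma 7.2).  Prefix `s7b_`.

`K* = (P, adjK p₀)`; `K` = its restriction to the star `R = star a b`; `H = stab R`.
* `s7b_adjK_fin`: `F` = all pairs in `⋃_{s ∈ S} Ic p₀ (s p₀) ×ˢ Ic p₀ (s p₀)` (finite by `s7a_Ic_finite`); translate by `g⁻¹`.
* `s7b_adjK_conn`: `g p₀ ~ g s p₀` by `s7a_chain`; Cayley graph connected (`𝔖.closure_eq`); every cut point lies on some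
  `Ic (g p₀) (g s p₀)` (`s7a_cut_cover`) and is joined to `g p₀` by `s7a_chain` + `s7a_Ic_subset`.
* `s7b_proj_path`: induction on the path with `s7a_proj_adj`, `s7a_proj_of_mem`.
* `s7b_K_edge_fin`: for each `e ∈ F` having a translate inside `R` choose one, `g_e e`; use `s7a_stab_of_pair`.
* `s7b_K_vert_fin`: `K` connected with `≥ 2` vertices, so each vertex is on an edge.
-/

set_option autoImplicit false

namespace Claimed.Agent.R309

open Filter Topology Set

variable {Γ : Type} [Group Γ] {𝔖 : GenSet Γ} {C : Cpt 𝔖}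

theorem s7b_adjK_symm {p₀ u v : C.X} (h : C.adjK p₀ u v) : C.adjK p₀ v u := by
  obtain ⟨h1, g, s, hs, hu, hv⟩ := h
  exact ⟨s7a_adj_symm h1, g, s, hs, hv, hu⟩

theorem s7b_adjK_smul (g : Γ) {p₀ u v : C.X} (h : C.adjK p₀ u v) : C.adjK p₀ (g • u) (g • v) := by
  obtain ⟨h1, k, s, hs, hu, hv⟩ := h
  refine ⟨(s7a_adj_smul g).2 h1, g * k, s, hs, ?_, ?_⟩
  · rw [mul_assoc, mul_smul, mul_smul g (k * s)]
    exact (s7a_Ic_smul g).2 hu
  · rw [mul_assoc, mul_smul, mul_smul g (k * s)]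
    exact (s7a_Ic_smul g).2 hv

theorem s7b_adjK_fin (hT : C.CutTree) {p₀ : C.X} (hp : C.IsCut p₀) :
    ∃ F : Finset (C.X × C.X), ∀ u v, C.adjK p₀ u v →
      ∃ g : Γ, ∃ e ∈ F, u = g • e.1 ∧ v = g • e.2 := by
  classical
  have hfin : ∀ s : Γ, (C.Ic p₀ (s • p₀) ×ˢ C.Ic p₀ (s • p₀)).Finite := fun s =>
    (s7a_Ic_finite hT hp ((s7a_isCut_smul s).2 hp)).prod (s7a_Ic_finite hT hp ((s7a_isCut_smul s).2 hp))
  refine ⟨𝔖.S.biUnion fun s => (hfin s).toFinset, ?_⟩
  rintro u v ⟨-, g, s, hs, hu, hv⟩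
  refine ⟨g, (g⁻¹ • u, g⁻¹ • v), ?_, (smul_inv_smul g u).symm, (smul_inv_smul g v).symm⟩
  rw [Finset.mem_biUnion]
  refine ⟨s, hs, ?_⟩
  rw [Set.Finite.mem_toFinset, Set.mem_prod]
  have key : ∀ w : C.X, w ∈ C.Ic (g • p₀) ((g * s) • p₀) → g⁻¹ • w ∈ C.Ic p₀ (s • p₀) := by
    intro w hw
    rw [← s7a_Ic_smul g, smul_inv_smul, ← mul_smul]
    exact hw
  exact ⟨key u hu, key v hv⟩

theorem s7b_adjK_conn (hC : C.Good) (hT : C.CutTree) {p₀ u v : C.X} (hp : C.IsCut p₀)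
    (hu : C.IsCut u) (hv : C.IsCut v) : Relation.ReflTransGen (C.adjK p₀) u v := by
  have hsymm : ∀ {x y : C.X}, Relation.ReflTransGen (C.adjK p₀) x y →
      Relation.ReflTransGen (C.adjK p₀) y x := by
    intro x y h
    induction h with
    | refl => exact Relation.ReflTransGen.refl
    | tail _ hstep ih => exact Relation.ReflTransGen.head (s7b_adjK_symm hstep) ih
  -- a point of a translated interval is joined to its first end point
  have stepC : ∀ (g s : Γ), s ∈ 𝔖.S → ∀ q ∈ C.Ic (g • p₀) ((g * s) • p₀),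
      Relation.ReflTransGen (C.adjK p₀) (g • p₀) q := by
    intro g s hs q hq
    have h1 : C.IsCut (g • p₀) := (s7a_isCut_smul g).2 hp
    have h2 : C.IsCut ((g * s) • p₀) := (s7a_isCut_smul _).2 hp
    have hqc : C.IsCut q := s7a_Ic_isCut h1 h2 hq
    have hsub := (s7a_Ic_subset hC.conn hq).1
    exact Relation.ReflTransGen.mono
      (fun x y h => ⟨h.1, g, s, hs, hsub h.2.1, hsub h.2.2⟩) _ _ (s7a_chain hC.conn hT h1 hqc)
  let K : Subgroup Γ :=
    { carrier := {m | ∀ k : Γ, Relation.ReflTransGen (C.adjK p₀) (k • p₀) ((k * m) • p₀)}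
      mul_mem' := by
        intro m m' hm hm' k
        rw [← mul_assoc]
        exact (hm k).trans (hm' (k * m))
      one_mem' := by
        intro k
        rw [mul_one]
      inv_mem' := by
        intro m hm k
        have := hm (k * m⁻¹)
        rw [inv_mul_cancel_right] at this
        exact hsymm this }
  have hK : K = ⊤ := by
    rw [eq_top_iff, ← 𝔖.closure_eq, Subgroup.closure_le]
    intro s hs k
    exact stepC k s hs _ (Or.inr (Or.inr rfl))
  have orbit : ∀ g : Γ, Relation.ReflTransGen (C.adjK p₀) p₀ (g • p₀) := by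
    intro g
    have hmem : g ∈ K := by
      rw [hK]
      exact Subgroup.mem_top _
    have := hmem 1
    rwa [one_smul, one_mul] at this
  have base : ∀ q : C.X, C.IsCut q → Relation.ReflTransGen (C.adjK p₀) p₀ q := by
    intro q hq
    obtain ⟨g, s, hs, hq'⟩ := s7a_cut_cover hC hp hq
    exact (orbit g).trans (stepC g s hs q hq')
  exact (hsymm (base u hu)).trans (base v hv)

/-- projecting a `K*`-path inside `W`: the projected path is a `K`-path inside `W` -/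
theorem s7b_proj_path (hC : C.Good) (hT : C.CutTree) {a b p₀ : C.X} (h : C.Adj a b) (W : Set C.X)
    {u v : C.X}
    (hp : Relation.ReflTransGen (fun x y => x ∈ W ∧ y ∈ W ∧ C.adjK p₀ x y) u v) :
    Relation.ReflTransGen
      (fun x y => x ∈ W ∧ y ∈ W ∧ x ∈ C.star a b ∧ y ∈ C.star a b ∧ C.adjK p₀ x y)
      (C.proj (C.star a b) u) (C.proj (C.star a b) v) := by
  induction hp with
  | refl => exact Relation.ReflTransGen.refl
  | tail _ hstep ih =>
    obtain ⟨hx, hy, hadj⟩ := hstep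
    rcases s7a_proj_adj hC.conn hT h hadj.1 with ⟨h1, h2⟩ | h1
    · refine ih.tail ?_
      rw [s7a_proj_of_mem hC.conn h h1, s7a_proj_of_mem hC.conn h h2]
      exact ⟨hx, hy, h1, h2, hadj⟩
    · rw [← h1]
      exact ih

theorem s7b_K_conn (hC : C.Good) (hT : C.CutTree) {a b p₀ u v : C.X} (h : C.Adj a b)
    (hp : C.IsCut p₀) (hu : u ∈ C.star a b) (hv : v ∈ C.star a b) :
    Relation.ReflTransGen (fun x y => x ∈ C.star a b ∧ y ∈ C.star a b ∧ C.adjK p₀ x y) u v := by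
  have h1 : Relation.ReflTransGen (fun x y => x ∈ (univ : Set C.X) ∧ y ∈ (univ : Set C.X) ∧ C.adjK p₀ x y)
      u v :=
    Relation.ReflTransGen.mono (fun x y h => ⟨mem_univ _, mem_univ _, h⟩) _ _
      (s7b_adjK_conn hC hT hp hu.1 hv.1)
  have h2 := s7b_proj_path hC hT h univ h1
  rw [s7a_proj_of_mem hC.conn h hu, s7a_proj_of_mem hC.conn h hv] at h2
  exact Relation.ReflTransGen.mono (fun x y h => ⟨h.2.2.1, h.2.2.2.1, h.2.2.2.2⟩) _ _ h2

theorem s7b_K_edge_fin (hC : C.Good) (hT : C.CutTree) {a b p₀ : C.X} (h : C.Adj a b)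
    (hp : C.IsCut p₀) :
    ∃ F : Finset (C.X × C.X), (∀ e ∈ F, e.1 ∈ C.star a b ∧ e.2 ∈ C.star a b) ∧
      ∀ u v, u ∈ C.star a b → v ∈ C.star a b → C.adjK p₀ u v →
        ∃ k ∈ C.stab (C.star a b), ∃ e ∈ F, u = k • e.1 ∧ v = k • e.2 := by
  classical
  obtain ⟨F0, hF0⟩ := s7b_adjK_fin hT hp
  let good : C.X × C.X → Prop := fun e => ∃ g : Γ, g • e.1 ∈ C.star a b ∧ g • e.2 ∈ C.star a b
  let ge : C.X × C.X → Γ := fun e => if he : good e then he.choose else 1
  have hge : ∀ e, good e → ge e • e.1 ∈ C.star a b ∧ ge e • e.2 ∈ C.star a b := by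
    intro e he
    simp only [ge, dif_pos he]
    exact he.choose_spec
  refine ⟨(F0.filter good).image fun e => (ge e • e.1, ge e • e.2), ?_, ?_⟩
  · intro e he
    rw [Finset.mem_image] at he
    obtain ⟨e0, he0, rfl⟩ := he
    exact hge e0 (Finset.mem_filter.1 he0).2
  · intro u v hu hv huv
    obtain ⟨g, e, he, rfl, rfl⟩ := hF0 u v huv
    have hgood : good e := ⟨g, hu, hv⟩
    have hne : e.1 ≠ e.2 := fun h1 => huv.1.2.2.1 (by rw [h1])
    refine ⟨g * (ge e)⁻¹, ?_, (ge e • e.1, ge e • e.2), ?_, ?_, ?_⟩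
    · refine s7a_stab_of_pair h _ (hge e hgood).1 (hge e hgood).2
        (fun h1 => hne (smul_left_cancel _ h1)) ?_ ?_
      · rw [mul_smul, inv_smul_smul]
        exact hu
      · rw [mul_smul, inv_smul_smul]
        exact hv
    · exact Finset.mem_image.2 ⟨e, Finset.mem_filter.2 ⟨he, hgood⟩, rfl⟩
    · rw [mul_smul, inv_smul_smul]
    · rw [mul_smul, inv_smul_smul]

theorem s7b_K_vert_fin (hC : C.Good) (hT : C.CutTree) {a b p₀ : C.X} (h : C.Adj a b)
    (hp : C.IsCut p₀) :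
    ∃ F : Finset C.X, (∀ w ∈ F, w ∈ C.star a b) ∧
      ∀ u ∈ C.star a b, ∃ k ∈ C.stab (C.star a b), ∃ w ∈ F, u = k • w := by
  classical
  obtain ⟨F, hF1, hF2⟩ := s7b_K_edge_fin hC hT h hp
  refine ⟨F.image Prod.fst, ?_, ?_⟩
  · intro w hw
    rw [Finset.mem_image] at hw
    obtain ⟨e, he, rfl⟩ := hw
    exact (hF1 e he).1
  · intro u hu
    obtain ⟨u', hu', hne⟩ : ∃ u' ∈ C.star a b, u ≠ u' := by
      by_cases hua : u = a
      · exact ⟨b, (s7a_star_mem h).2, hua ▸ h.2.2.1⟩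
      · exact ⟨a, (s7a_star_mem h).1, hua⟩
    rcases (s7b_K_conn hC hT h hp hu hu').cases_head with h1 | ⟨x, ⟨-, hx, hux⟩, -⟩
    · exact absurd h1 hne
    · obtain ⟨k, hk, e, he, h1, -⟩ := hF2 u x hu hx hux
      exact ⟨k, hk, e.1, Finset.mem_image.2 ⟨e, he, rfl⟩, h1⟩

end Claimed.Agent.R309
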