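import Claimed.Agent.R309.S7.Graph

/-!
# Row 309, package S7-3: near paths in `K*` (Lemma 7.2 `block:near-path`, 1st half).  Prefix `s7c_`.

`s7c_cut_comp` (= (7.1) `block:parabolic-comparison`): `p` cut; `s7a_cut_stab_infinite` gives `h ≠ 1`, `h p = p`; `h` has infinite order
(`hG.torsionFree`); `hT.parab` gives `fixB h = {p}`; `hC.parabComp`.

`s7c_nearPathK`.  `T := ⋃_{s ∈ S} Ic p₀ (s p₀)` finite set of cut points.  For `ε > 0` the set `F ε := {g | ∃ t ∈ T, ε ≤ dist (ι g) (g t)}` is finite.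
Given `x ∈ B`, `W ∈ 𝓝 x`: `ball x (2ε) ⊆ W`; `W₁ := ball x ε \ ι '' F ε ∈ 𝓝 x`; `hC.nearPath` gives `V₁ ⊆ W₁`; `ball x (2δ) ⊆ V₁`, `δ ≤ ε`; `V := ball x δ`.
For a cut point `a ∈ V`: `a = g t`, `t ∈ T` (`s7a_cut_cover`); `{g' | g' t = a} = g Stab(t)` is infinite, so some `g' ∉ F δ`; then `ι g' ∈ V₁`.
Same for `b = h' t'`.  Cayley path `g' = g₀, …, g_n = h'` inside `W₁`; replace the step `g_j → g_j s` by the chain of `s7a_chain` in
`Ic (g_j p₀) (g_j s p₀) = g_j • Ic p₀ (s p₀)`; its vertices `g_j t` satisfy `dist (g_j t) x < 2ε`.  Ends: chains from `a` to `g' p₀` inside `Ic (g' p₀) (g' s p₀)`.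
-/

set_option autoImplicit false

namespace Claimed.Agent.R309

open Filter Topology Set

variable {Γ : Type} [Group Γ] {𝔖 : GenSet Γ} {C : Cpt 𝔖}

theorem s7c_cut_comp (hG : GroupHyp 𝔖) (hC : C.Good) (hT : C.CutTree) {p : C.X} (hp : C.IsCut p) :
    Tendsto (fun g : Γ => dist (C.ι g) (g • p)) cofinite (𝓝 0) := by
  obtain ⟨h, hfix, h1⟩ := (s7a_cut_stab_infinite hC hT hp).exists_notMem_finite (finite_singleton (1 : Γ))
  have h1' : h ≠ 1 := h1
  exact (hC.parabComp h p (hG.torsionFree h h1') (hT.parab p hp h h1' hfix)).2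

/-- every cut point is fixed by an element all of whose powers push `B` to it -/
theorem s7c_cut_parab (hG : GroupHyp 𝔖) (hC : C.Good) (hT : C.CutTree) {p : C.X} (hp : C.IsCut p)
    {h : Γ} (h1 : h ≠ 1) (hfix : h • p = p) :
    ∀ z ∈ C.B, Tendsto (fun n : ℕ => h ^ n • z) atTop (𝓝 p) :=
  (hC.parabComp h p (hG.torsionFree h h1) (hT.parab p hp h h1 hfix)).1

theorem s7c_nearPathK (hG : GroupHyp 𝔖) (hC : C.Good) (hT : C.CutTree) {p₀ : C.X}
    (hp : C.IsCut p₀) :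
    ∀ x ∈ C.B, ∀ W ∈ 𝓝 x, ∃ V ∈ 𝓝 x, V ⊆ W ∧ ∀ a b, C.IsCut a → C.IsCut b → a ∈ V → b ∈ V →
      Relation.ReflTransGen (fun u v => u ∈ W ∧ v ∈ W ∧ C.adjK p₀ u v) a b := by
  intro x hx W hW
  -- the finite set `T`
  let T : Set C.X := ⋃ s ∈ (𝔖.S : Set Γ), C.Ic p₀ (s • p₀)
  have hTfin : T.Finite := Set.Finite.biUnion 𝔖.S.finite_toSet fun s _ =>
    s7a_Ic_finite hT hp ((s7a_isCut_smul s).2 hp)
  have hTcut : ∀ t ∈ T, C.IsCut t := by
    intro t ht
    simp only [T, mem_iUnion] at ht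
    obtain ⟨s, -, ht⟩ := ht
    exact s7a_Ic_isCut hp ((s7a_isCut_smul s).2 hp) ht
  have hTmem : ∀ (g s : Γ), s ∈ 𝔖.S → ∀ q ∈ C.Ic (g • p₀) ((g * s) • p₀), g⁻¹ • q ∈ T := by
    intro g s hs q hq
    simp only [T, mem_iUnion]
    refine ⟨s, hs, ?_⟩
    rw [← s7a_Ic_smul g, smul_inv_smul, ← mul_smul]
    exact hq
  -- the finite exceptional sets
  let F : ℝ → Set Γ := fun ε => ⋃ t ∈ T, {g : Γ | ¬ dist (C.ι g) (g • t) < ε}
  have hFfin : ∀ ε > 0, (F ε).Finite := by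
    intro ε hε
    refine Set.Finite.biUnion hTfin fun t ht => ?_
    exact Filter.eventually_cofinite.1
      ((s7c_cut_comp hG hC hT (hTcut t ht)).eventually (gt_mem_nhds hε))
  have hFout : ∀ ε g, g ∉ F ε → ∀ t ∈ T, dist (C.ι g) (g • t) < ε := by
    intro ε g hg t ht
    by_contra hcon
    apply hg
    simp only [F, mem_iUnion]
    exact ⟨t, ht, hcon⟩
  obtain ⟨ε', hε', hball⟩ := Metric.mem_nhds_iff.1 hW
  set ε := ε' / 2 with hεdef
  have hε : 0 < ε := by positivity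
  let W₁ : Set C.X := Metric.ball x ε ∩ (C.ι '' F ε)ᶜ
  have hW₁ : W₁ ∈ 𝓝 x := by
    refine Filter.inter_mem (Metric.ball_mem_nhds x hε) ?_
    refine ((hFfin ε hε).image C.ι).isClosed.isOpen_compl.mem_nhds ?_
    rintro ⟨g, -, hg⟩
    exact hx ⟨g, hg⟩
  obtain ⟨V₁, hV₁, hV₁W, hpath⟩ := hC.nearPath x hx W₁ hW₁
  obtain ⟨δ', hδ', hballV⟩ := Metric.mem_nhds_iff.1 hV₁
  set δ := min (δ' / 2) ε with hδdef
  have hδ : 0 < δ := lt_min (by positivity) hε
  have hδε : δ ≤ ε := min_le_right _ _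
  have hδδ : 2 * δ ≤ δ' := by
    have := min_le_left (δ' / 2) ε
    linarith
  refine ⟨Metric.ball x δ, Metric.ball_mem_nhds x hδ, ?_, ?_⟩
  · intro z hz
    apply hball
    rw [Metric.mem_ball] at hz ⊢
    linarith
  intro a b ha hb haV hbV
  -- points of the translated intervals at vertices of `W₁` lie in `W`
  have hinW : ∀ (g s : Γ), C.ι g ∈ W₁ → s ∈ 𝔖.S → ∀ q ∈ C.Ic (g • p₀) ((g * s) • p₀), q ∈ W := by
    intro g s hg hs q hq
    apply hball
    rw [Metric.mem_ball]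
    have hgF : g ∉ F ε := fun h1 => hg.2 ⟨g, h1, rfl⟩
    have h1 := hFout ε g hgF _ (hTmem g s hs q hq)
    rw [smul_inv_smul] at h1
    have h2 : dist (C.ι g) x < ε := hg.1
    have h3 := dist_triangle_left q x (C.ι g)
    linarith
  have hsymm : ∀ {u v : C.X}, Relation.ReflTransGen (fun u v => u ∈ W ∧ v ∈ W ∧ C.adjK p₀ u v) u v →
      Relation.ReflTransGen (fun u v => u ∈ W ∧ v ∈ W ∧ C.adjK p₀ u v) v u := by
    intro u v h
    induction h with
    | refl => exact Relation.ReflTransGen.refl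
    | tail _ hstep ih =>
      exact Relation.ReflTransGen.head ⟨hstep.2.1, hstep.1, s7b_adjK_symm hstep.2.2⟩ ih
  have stepC : ∀ (g s : Γ), C.ι g ∈ W₁ → s ∈ 𝔖.S → ∀ q ∈ C.Ic (g • p₀) ((g * s) • p₀),
      Relation.ReflTransGen (fun u v => u ∈ W ∧ v ∈ W ∧ C.adjK p₀ u v) (g • p₀) q := by
    intro g s hg hs q hq
    have h1 : C.IsCut (g • p₀) := (s7a_isCut_smul g).2 hp
    have h2 : C.IsCut ((g * s) • p₀) := (s7a_isCut_smul _).2 hp
    have hqc : C.IsCut q := s7a_Ic_isCut h1 h2 hq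
    have hsub := (s7a_Ic_subset hC.conn hq).1
    exact Relation.ReflTransGen.mono
      (fun u v h => ⟨hinW g s hg hs u (hsub h.2.1), hinW g s hg hs v (hsub h.2.2),
        h.1, g, s, hs, hsub h.2.1, hsub h.2.2⟩) _ _ (s7a_chain hC.conn hT h1 hqc)
  -- a cut point of `V` lies on a translated interval at a vertex of `V₁`
  have hend : ∀ c : C.X, C.IsCut c → c ∈ Metric.ball x δ →
      ∃ g s : Γ, s ∈ 𝔖.S ∧ C.ι g ∈ V₁ ∧ c ∈ C.Ic (g • p₀) ((g * s) • p₀) := by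
    intro c hc hcV
    obtain ⟨g, s, hs, hcI⟩ := s7a_cut_cover hC hp hc
    have ht := hTmem g s hs c hcI
    set t := g⁻¹ • c with htdef
    have hinf : ((fun h : Γ => g * h) '' {h : Γ | h • t = t}).Infinite :=
      (s7a_cut_stab_infinite hC hT (hTcut t ht)).image (mul_right_injective g).injOn
    obtain ⟨g', ⟨h, hh, rfl⟩, hg'⟩ := hinf.exists_notMem_finite (hFfin δ hδ)
    have hgt : (g * h) • t = c := by
      rw [mul_smul, hh, htdef, smul_inv_smul]
    refine ⟨g * h, s, hs, ?_, ?_⟩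
    · apply hballV
      rw [Metric.mem_ball]
      have h1 := hFout δ _ hg' t ht
      rw [hgt] at h1
      have h2 : dist c x < δ := hcV
      have h3 := dist_triangle (C.ι (g * h)) c x
      linarith
    · have h4 : t ∈ C.Ic p₀ (s • p₀) := by
        rw [← s7a_Ic_smul g, htdef, smul_inv_smul, ← mul_smul]
        exact hcI
      rw [← hgt, mul_smul (g * h) s, s7a_Ic_smul]
      exact h4
  obtain ⟨g, s, hs, hgV, haI⟩ := hend a ha haV
  obtain ⟨g', s', hs', hgV', hbI⟩ := hend b hb hbV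
  have hgen : ∀ k k' : Γ, Relation.ReflTransGen
      (fun a b => C.ι a ∈ W₁ ∧ C.ι b ∈ W₁ ∧ ∃ s ∈ 𝔖.S, b = a * s) k k' →
      Relation.ReflTransGen (fun u v => u ∈ W ∧ v ∈ W ∧ C.adjK p₀ u v) (k • p₀) (k' • p₀) := by
    intro k k' hkk
    induction hkk with
    | refl => exact Relation.ReflTransGen.refl
    | tail _ hstep ih =>
      obtain ⟨h1, -, s'', hs'', rfl⟩ := hstep
      exact ih.trans (stepC _ s'' h1 hs'' _ (Or.inr (Or.inr rfl)))
  have hmid := hgen g g' (hpath g g' hgV hgV')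
  exact ((hsymm (stepC g s (hV₁W hgV) hs a haI)).trans hmid).trans (stepC g' s' (hV₁W hgV') hs' b hbI)

end Claimed.Agent.R309
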