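import Claimed.Agent.R309.S7.NearPath

/-!
# Row 309, package S7-4: the retraction onto a block (Prop 7.3 `block:retraction`).  Prefix `s7d_`.  Owner helper29.

`R = star a b`, `L = closure R ⊆ B`, `π = proj R`, `P` = cut points (dense in `B`).
* `s7d_locConst`: `O` = an open nbhd of `x` missing `L`; `V` from `s7c_nearPathK` for `W = O`; for cut points `p, p' ∈ V` the projected path
  (`s7b_proj_path`) has all its steps in `O ∩ R = ∅`, so it is `refl`.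
* `s7d_tendsto`: `V ⊆ W` from `s7c_nearPathK`; pick `c ∈ R ∩ V`; the projected path from `π p` to `π c = c` is `refl` (`π p = c ∈ W`) or starts in `W`.
* `s7d_retraction`: `r := extendFrom P π`, Mathlib `continuousOn_extendFrom`.
* `s7d_nocut`: if `L \ {q}` is not preconnected, split it in `U ⊔ V` (relatively clopen, nonempty), `u ∈ R ∩ U`, `v ∈ R ∩ V`;
  `F := r⁻¹{q} \ {q}` is clopen in `B \ {q}`; `(r⁻¹ U ∪ F) ⊔ r⁻¹ V` shows `SepBy q u v`: contradiction with `s7a_star_clique`.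
-/

set_option autoImplicit false

namespace Claimed.Agent.R309

open Filter Topology Set

variable {Γ : Type} [Group Γ] {𝔖 : GenSet Γ} {C : Cpt 𝔖}

theorem s7d_L_subset (_hC : C.Good) {a b : C.X} : closure (C.star a b) ⊆ C.B :=
  closure_minimal (fun _ hc => s7a_isCut_mem_B hc.1) (s7a_isClosed_B C)

theorem s7d_locConst (hG : GroupHyp 𝔖) (hC : C.Good) (hT : C.CutTree) {a b : C.X} (h : C.Adj a b)
    {x : C.X} (hx : x ∈ C.B) (hxL : x ∉ closure (C.star a b)) :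
    ∃ V ∈ 𝓝 x, ∃ c ∈ C.star a b, ∀ p ∈ V, C.IsCut p → C.proj (C.star a b) p = c := by
  have hO : (closure (C.star a b))ᶜ ∈ 𝓝 x := isClosed_closure.isOpen_compl.mem_nhds hxL
  obtain ⟨V, hV, -, hVp⟩ := s7c_nearPathK hG hC hT h.1 x hx _ hO
  obtain ⟨p₁, hp₁V, hp₁⟩ := mem_closure_iff_nhds.mp (s7a_cut_dense hC h.1 hx) V hV
  refine ⟨V, hV, C.proj (C.star a b) p₁, (s7a_proj_gate hC.conn hT h hp₁).1, ?_⟩
  intro p hpV hp
  have hpath := s7b_proj_path hC hT h _ (hVp p p₁ hp hp₁ hpV hp₁V)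
  rcases hpath.cases_head with heq | ⟨c, hc, -⟩
  · exact heq
  · exact absurd (subset_closure hc.2.2.1) hc.1

theorem s7d_tendsto (hG : GroupHyp 𝔖) (hC : C.Good) (hT : C.CutTree) {a b : C.X} (h : C.Adj a b)
    {x : C.X} (hxL : x ∈ closure (C.star a b)) :
    Tendsto (C.proj (C.star a b)) (𝓝[{p | C.IsCut p}] x) (𝓝 x) := by
  intro W hW
  rw [Filter.mem_map, mem_nhdsWithin_iff_exists_mem_nhds_inter]
  obtain ⟨V, hV, hVW, hVp⟩ := s7c_nearPathK hG hC hT h.1 x (s7d_L_subset hC hxL) W hW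
  obtain ⟨c, hcV, hc⟩ := mem_closure_iff_nhds.mp hxL V hV
  refine ⟨V, hV, ?_⟩
  rintro p ⟨hpV, hp⟩
  have hpath := s7b_proj_path hC hT h _ (hVp p c hp hc.1 hpV hcV)
  rw [s7a_proj_of_mem hC.conn h hc] at hpath
  rcases hpath.cases_head with heq | ⟨c', hc', -⟩
  · rw [mem_preimage, heq]; exact hVW hcV
  · exact hc'.1

theorem s7d_retraction (hG : GroupHyp 𝔖) (hC : C.Good) (hT : C.CutTree) {a b : C.X}
    (h : C.Adj a b) :
    ∃ r : C.X → C.X, ContinuousOn r C.B ∧ MapsTo r C.B (closure (C.star a b)) ∧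
      (∀ x ∈ closure (C.star a b), r x = x) ∧
      ∀ x ∈ C.B, x ∉ closure (C.star a b) → ∃ V ∈ 𝓝 x, ∀ y ∈ V, y ∈ C.B → r y = r x := by
  set P : Set C.X := {p | C.IsCut p} with hP
  set π := C.proj (C.star a b) with hπ
  have hdense : C.B ⊆ closure P := s7a_cut_dense hC h.1
  -- limits off `L`
  have hoff : ∀ x ∈ C.B, x ∉ closure (C.star a b) → ∃ V ∈ 𝓝 x, ∃ c ∈ C.star a b,
      ∀ y ∈ V, y ∈ C.B → Tendsto π (𝓝[P] y) (𝓝 c) := by
    intro x hx hxL
    obtain ⟨V, hV, c, hc, hVc⟩ := s7d_locConst hG hC hT h hx hxL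
    refine ⟨interior V, interior_mem_nhds.mpr hV, c, hc, ?_⟩
    intro y hy _
    have hVy : V ∈ 𝓝 y := mem_interior_iff_mem_nhds.mp hy
    refine tendsto_const_nhds.congr' ?_
    have : V ∩ P ∈ 𝓝[P] y := Filter.inter_mem (mem_nhdsWithin_of_mem_nhds hVy) self_mem_nhdsWithin
    filter_upwards [this] with p hp
    exact (hVc p hp.1 hp.2).symm
  have hon : ∀ x ∈ closure (C.star a b), Tendsto π (𝓝[P] x) (𝓝 x) := fun x hx =>
    s7d_tendsto hG hC hT h hx
  refine ⟨extendFrom P π, ?_, ?_, ?_, ?_⟩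
  · apply continuousOn_extendFrom hdense
    intro x hx
    by_cases hxL : x ∈ closure (C.star a b)
    · exact ⟨x, hon x hxL⟩
    · obtain ⟨V, hV, c, -, hVc⟩ := hoff x hx hxL
      exact ⟨c, hVc x (mem_of_mem_nhds hV) hx⟩
  · intro x hx
    by_cases hxL : x ∈ closure (C.star a b)
    · rw [extendFrom_eq (hdense hx) (hon x hxL)]; exact hxL
    · obtain ⟨V, hV, c, hc, hVc⟩ := hoff x hx hxL
      rw [extendFrom_eq (hdense hx) (hVc x (mem_of_mem_nhds hV) hx)]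
      exact subset_closure hc
  · intro x hxL
    exact extendFrom_eq (hdense (s7d_L_subset hC hxL)) (hon x hxL)
  · intro x hx hxL
    obtain ⟨V, hV, c, -, hVc⟩ := hoff x hx hxL
    refine ⟨V, hV, ?_⟩
    intro y hy hyB
    rw [extendFrom_eq (hdense hyB) (hVc y hy hyB),
      extendFrom_eq (hdense hx) (hVc x (mem_of_mem_nhds hV) hx)]

theorem s7d_L_connected (hG : GroupHyp 𝔖) (hC : C.Good) (hT : C.CutTree) {a b : C.X}
    (h : C.Adj a b) : IsConnected (closure (C.star a b)) := by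
  obtain ⟨r, hrc, hrm, hrid, -⟩ := s7d_retraction hG hC hT h
  have : r '' C.B = closure (C.star a b) := by
    apply Subset.antisymm
    · rintro _ ⟨x, hx, rfl⟩; exact hrm hx
    · intro x hx; exact ⟨x, s7d_L_subset hC hx, hrid x hx⟩
  rw [← this]
  exact hC.conn.image r hrc

theorem s7d_L_nontrivial {a b : C.X} (h : C.Adj a b) : (closure (C.star a b)).Nontrivial :=
  ⟨a, subset_closure (s7a_star_mem h).1, b, subset_closure (s7a_star_mem h).2, h.2.2.1⟩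

theorem s7d_nocut (hG : GroupHyp 𝔖) (hC : C.Good) (hT : C.CutTree) {a b : C.X} (h : C.Adj a b) :
    ∀ q ∈ closure (C.star a b), IsPreconnected (closure (C.star a b) \ {q}) := by
  intro q hq
  by_contra hn
  set L := closure (C.star a b) with hL
  have hLB : L ⊆ C.B := s7d_L_subset hC
  have hBc : IsClosed C.B := s7a_isClosed_B C
  obtain ⟨r, hrc, hrm, hrid, hrl⟩ := s7d_retraction hG hC hT h
  replace hn : ¬ ∀ u v : Set C.X, IsOpen u → IsOpen v → L \ {q} ⊆ u ∪ v →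
      (L \ {q} ∩ u).Nonempty → (L \ {q} ∩ v).Nonempty → (L \ {q} ∩ (u ∩ v)).Nonempty := hn
  push Not at hn
  obtain ⟨u, v, hu, hv, hcov, ⟨y, hy, hyu⟩, ⟨z, hz, hzv⟩, hemp'⟩ := hn
  have hemp : ∀ w, w ∈ L → w ≠ q → w ∈ u → w ∈ v → False := by
    intro w h1 h2 h3 h4
    have : w ∈ L \ {q} ∩ (u ∩ v) := ⟨⟨h1, h2⟩, h3, h4⟩
    rw [hemp'] at this
    exact this
  -- points of the star on both sides
  obtain ⟨c₁, ⟨hc₁u, hc₁q⟩, hc₁⟩ := mem_closure_iff.mp hy.1 (u \ {q})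
    (hu.sdiff isClosed_singleton) ⟨hyu, hy.2⟩
  obtain ⟨c₂, ⟨hc₂v, hc₂q⟩, hc₂⟩ := mem_closure_iff.mp hz.1 (v \ {q})
    (hv.sdiff isClosed_singleton) ⟨hzv, hz.2⟩
  have hc₁L : c₁ ∈ L := subset_closure hc₁
  have hc₂L : c₂ ∈ L := subset_closure hc₂
  have hne : c₁ ≠ c₂ := by
    rintro rfl
    exact hemp c₁ hc₁L hc₁q hc₁u hc₂v
  -- the extra fibre
  set F : Set C.X := {x | x ∈ C.B ∧ x ≠ q ∧ r x = q} with hF
  have hFL : ∀ x ∈ F, x ∉ L := by
    rintro x ⟨_, hxq, hrx⟩ hxL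
    rw [hrid x hxL] at hrx
    exact hxq hrx
  set O : Set C.X := (⋃ x ∈ F, interior {w | w ∈ C.B → r w = q}) \ {q} with hO
  have hOo : IsOpen O :=
    (isOpen_biUnion fun _ _ => isOpen_interior).sdiff isClosed_singleton
  have hFO : ∀ x, x ∈ C.B → (x ∈ O ↔ x ∈ F) := by
    intro x hxB
    constructor
    · rintro ⟨hx1, hx2⟩
      obtain ⟨x', -, hx'⟩ := mem_iUnion₂.mp hx1
      exact ⟨hxB, hx2, interior_subset hx' hxB⟩
    · intro hxF
      refine ⟨mem_iUnion₂.mpr ⟨x, hxF, ?_⟩, hxF.2.1⟩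
      obtain ⟨V, hV, hVr⟩ := hrl x hxB (hFL x hxF)
      rw [mem_interior_iff_mem_nhds]
      refine Filter.mem_of_superset hV ?_
      intro w hw hwB
      rw [hVr w hw hwB]; exact hxF.2.2
  set V₀ : Set C.X := C.B ∩ r ⁻¹' (v \ {q}) with hV₀
  have hqB : q ∈ C.B := hLB hq
  have hqV : q ∉ V₀ := by
    rintro ⟨-, -, hqq⟩
    exact hqq (hrid q hq)
  apply (s7a_star_clique h hc₁ hc₂ hne).2.2.2 q
  refine ⟨hqB, (C.B \ {q}) \ V₀, V₀, ?_, ?_, disjoint_sdiff_left, ?_, ?_, ?_⟩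
  · -- `U ∪ {q} = B ∩ r⁻¹ (v \ {q})ᶜ`
    have : (C.B \ {q}) \ V₀ ∪ {q} = C.B ∩ r ⁻¹' (v \ {q})ᶜ := by
      ext w
      simp only [mem_union, mem_diff, mem_singleton_iff, mem_inter_iff, mem_preimage,
        mem_compl_iff, hV₀]
      constructor
      · rintro (⟨⟨hw, _⟩, hwV⟩ | rfl)
        · exact ⟨hw, fun hh => hwV ⟨hw, hh⟩⟩
        · exact ⟨hqB, fun hh => hh.2 (hrid w hq)⟩
      · rintro ⟨hw, hwV⟩
        by_cases hwq : w = q
        · right; exact hwq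
        · left; exact ⟨⟨hw, hwq⟩, fun hh => hwV hh.2⟩
    rw [this]
    exact hrc.preimage_isClosed_of_isClosed hBc (hv.sdiff isClosed_singleton).isClosed_compl
  · -- `V ∪ {q} = (B ∩ r⁻¹ (u \ {q})ᶜ) \ O`
    have : V₀ ∪ {q} = (C.B ∩ r ⁻¹' (u \ {q})ᶜ) \ O := by
      ext w
      constructor
      · rintro (⟨hw, hwv, hwq⟩ | hw)
        · refine ⟨⟨hw, fun hh => hemp (r w) (hrm hw) hwq hh.1 hwv⟩, fun hwO => ?_⟩
          exact hwq ((hFO w hw).mp hwO).2.2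
        · rw [mem_singleton_iff] at hw
          subst hw
          exact ⟨⟨hqB, fun hh => hh.2 (hrid w hq)⟩, fun hwO => hwO.2 rfl⟩
      · rintro ⟨⟨hw, hwu⟩, hwO⟩
        by_cases hrq : r w = q
        · right
          by_contra hwq
          exact hwO ((hFO w hw).mpr ⟨hw, hwq, hrq⟩)
        · left
          refine ⟨hw, ?_, hrq⟩
          rcases hcov ⟨hrm hw, hrq⟩ with h1 | h1
          · exact absurd ⟨h1, hrq⟩ hwu
          · exact h1
    rw [this]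
    exact (hrc.preimage_isClosed_of_isClosed hBc
      (hu.sdiff isClosed_singleton).isClosed_compl).sdiff hOo
  · -- union
    apply diff_union_of_subset
    rintro w ⟨hw, -, hwq⟩
    refine ⟨hw, ?_⟩
    rintro rfl
    exact hwq (hrid _ hq)
  · refine ⟨⟨hLB hc₁L, hc₁q⟩, ?_⟩
    rintro ⟨-, hcv, -⟩
    rw [hrid c₁ hc₁L] at hcv
    exact hemp c₁ hc₁L hc₁q hc₁u hcv
  · refine ⟨hLB hc₂L, ?_⟩
    rw [mem_preimage, hrid c₂ hc₂L]
    exact ⟨hc₂v, hc₂q⟩

/-- every point of `L` is an accumulation point of `R` -/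
theorem s7d_acc (hG : GroupHyp 𝔖) (hC : C.Good) (hT : C.CutTree) {a b : C.X} (h : C.Adj a b) :
    ∀ x ∈ closure (C.star a b), x ∈ closure (C.star a b \ {x}) := by
  intro x hx
  rw [mem_closure_iff]
  intro W hW hxW
  have hconn := (s7d_L_connected hG hC hT h).isPreconnected
  obtain ⟨x', hx', hne⟩ := (s7d_L_nontrivial h).exists_ne x
  obtain ⟨y, hyL, hyW, hyx⟩ := hconn W {x}ᶜ hW isOpen_compl_singleton
    (by
      intro w _
      by_cases hw : w = x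
      · left; rw [hw]; exact hxW
      · right; exact hw)
    ⟨x, hx, hxW⟩ ⟨x', hx', hne⟩
  obtain ⟨c, ⟨hcW, hcx⟩, hc⟩ := mem_closure_iff.mp hyL (W \ {x}) (hW.sdiff isClosed_singleton)
    ⟨hyW, hyx⟩
  exact ⟨c, hcW, hc, hcx⟩

end Claimed.Agent.R309
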