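import Claimed.Agent.R309.S7.Defs

/-!
# Row 309, package S7-1: the discrete pretree of cut points (stars, gates).  Prefix `s7a_`.

Pure "pretree" reasoning.  Notation `(x q y)` = `C.SepBy q x y`.  The three axioms are
`s7a_symm`, `s7a_asymm` (not `(x q y)` and `(x y q)`), `s7a_tri` (`(x q y)`, `z ≠ q` => `(x q z)` or `(z q y)`).
Only `s7a_side_connected`/`s7a_asymm` use topology: `B` connected, `B \ {p} = U ⊔ V` => `U ∪ {p}` is connected
(it is the image of `B` under the retraction collapsing `V ∪ {p}` to `p`, continuous by pasting on two closed sets).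
Everything after `s7a_trans'` follows from the axioms + finiteness of `Sp a b` (`hT.fin_sep`).

Proof sketches.
* `s7a_trans`: `(a q b)`, `(a r q)`.  `b ≠ r` by asymm.  tri on `(a r q)` with `b`: `(a r b)` or `(b r q)`; in the 2nd case tri on
  `(a q b)` with `r`: `(a q r)` (contradicts `(a r q)`) or `(r q b)` (contradicts `(b r q)`).
* `s7a_exists_adj`: choose `c ∈ Sp a b ∪ {b}` with `(Sp a c).ncard` minimal; `q ∈ Sp a c` would be better.
* `s7a_chain`: strong induction on `(Sp a b).ncard`, using `s7a_exists_adj` and `Ic c b ⊆ Ic a b`.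
* `s7a_star_clique`: `q ∈ Sp c c'`; tri with `a` forces `q = a`, tri with `b` forces `q = b`.
* `s7a_gate_exists` (`p ∉ R`): every `q ∈ Sp p a` is in `Sp p b` or `= b` (tri, `a,b` adjacent) and conversely.
  Case `b ∈ Sp p a`: gate `b`.  Case `a ∈ Sp p b`: gate `a`.  Else `Sp p a = Sp p b ≠ ∅` (as `p ∉ R`); take `c` in it with `(Sp c a).ncard`
  minimal: `Sp c a = ∅` (trans), `Sp c b = ∅` (tri with `a`), so `c ∈ R`; `(p c a)` + tri gives `(p c c')` for `c' ∈ R`, `c' ≠ c`.
* `s7a_proj_adj`: `u ∉ R`, `c` its gate.  `v = c`: fine.  Else tri on `(u c c')` with `v`: `(u c v)` impossible, so `(v c c')` for all `c'`; so `v ∉ R`, gate `c`.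
-/

set_option autoImplicit false

namespace Claimed.Agent.R309

open Filter Topology Set

variable {Γ : Type} [Group Γ] {𝔖 : GenSet Γ} (C : Cpt 𝔖)

theorem s7a_isClosed_B : IsClosed C.B := by
  have h : IsOpen (range C.ι) := by
    have e : range C.ι = ⋃ g, {C.ι g} := by
      ext x
      simp [eq_comm]
    rw [e]
    exact isOpen_iUnion fun g => C.ι_isolated g
  exact h.isClosed_compl

theorem s7a_smul_mem_B (g : Γ) {x : C.X} : g • x ∈ C.B ↔ x ∈ C.B := by
  unfold Cpt.B
  simp only [mem_compl_iff, not_iff_not]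
  constructor
  · rintro ⟨h, hh⟩
    refine ⟨g⁻¹ * h, ?_⟩
    rw [C.ι_mul, hh, inv_smul_smul]
  · rintro ⟨h, rfl⟩
    exact ⟨g * h, C.ι_mul g h⟩

variable {C}

theorem s7a_symm {p x y : C.X} (h : C.SepBy p x y) : C.SepBy p y x := by
  obtain ⟨hp, U, V, hU, hV, hd, hUV, hx, hy⟩ := h
  exact ⟨hp, V, U, hV, hU, hd.symm, by rw [union_comm]; exact hUV, hy, hx⟩

theorem s7a_mem {p x y : C.X} (h : C.SepBy p x y) :
    p ∈ C.B ∧ x ∈ C.B ∧ y ∈ C.B ∧ x ≠ p ∧ y ≠ p ∧ x ≠ y := by
  obtain ⟨hp, U, V, hU, hV, hd, hUV, hx, hy⟩ := h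
  have hx' : x ∈ C.B \ {p} := hUV ▸ Or.inl hx
  have hy' : y ∈ C.B \ {p} := hUV ▸ Or.inr hy
  refine ⟨hp, hx'.1, hy'.1, hx'.2, hy'.2, ?_⟩
  rintro rfl
  exact Set.disjoint_left.1 hd hx hy

theorem s7a_smul (g : Γ) {p x y : C.X} (h : C.SepBy p x y) : C.SepBy (g • p) (g • x) (g • y) := by
  obtain ⟨hp, U, V, hU, hV, hd, hUV, hx, hy⟩ := h
  have key : ∀ W : Set C.X, (fun z : C.X => g⁻¹ • z) ⁻¹' W ∪ {g • p} =
      (fun z : C.X => g⁻¹ • z) ⁻¹' (W ∪ {p}) := by
    intro W
    ext z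
    simp only [mem_union, mem_preimage, mem_singleton_iff]
    rw [inv_smul_eq_iff]
  refine ⟨(s7a_smul_mem_B C g).2 hp, (fun z : C.X => g⁻¹ • z) ⁻¹' U, (fun z : C.X => g⁻¹ • z) ⁻¹' V,
    ?_, ?_, hd.preimage _, ?_, ?_, ?_⟩
  · rw [key]
    exact hU.preimage (C.act_cont g⁻¹)
  · rw [key]
    exact hV.preimage (C.act_cont g⁻¹)
  · rw [← preimage_union, hUV]
    ext z
    simp only [mem_preimage, Set.mem_sdiff, mem_singleton_iff]
    rw [s7a_smul_mem_B C g⁻¹, inv_smul_eq_iff]
  · simpa only [mem_preimage, inv_smul_smul] using hx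
  · simpa only [mem_preimage, inv_smul_smul] using hy

theorem s7a_smul_iff (g : Γ) {p x y : C.X} : C.SepBy (g • p) (g • x) (g • y) ↔ C.SepBy p x y := by
  refine ⟨fun h => ?_, s7a_smul g⟩
  have := s7a_smul g⁻¹ h
  simpa only [inv_smul_smul] using this

theorem s7a_isCut_smul (g : Γ) {p : C.X} : C.IsCut (g • p) ↔ C.IsCut p := by
  constructor
  · rintro ⟨x, y, h⟩
    refine ⟨g⁻¹ • x, g⁻¹ • y, ?_⟩
    have := s7a_smul g⁻¹ h
    simpa only [inv_smul_smul] using this
  · rintro ⟨x, y, h⟩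
    exact ⟨g • x, g • y, s7a_smul g h⟩

theorem s7a_isCut_of_sepBy {p x y : C.X} (h : C.SepBy p x y) : C.IsCut p := ⟨x, y, h⟩

theorem s7a_tri {q x y z : C.X} (h : C.SepBy q x y) (hz : z ∈ C.B) (hzq : z ≠ q) :
    C.SepBy q x z ∨ C.SepBy q z y := by
  obtain ⟨hp, U, V, hU, hV, hd, hUV, hx, hy⟩ := h
  have hz' : z ∈ U ∪ V := by
    rw [hUV]
    exact ⟨hz, hzq⟩
  rcases hz' with hz' | hz'
  · exact Or.inr ⟨hp, U, V, hU, hV, hd, hUV, hz', hy⟩
  · exact Or.inl ⟨hp, U, V, hU, hV, hd, hUV, hx, hz'⟩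

theorem s7a_side_connected (hconn : IsConnected C.B) {p : C.X} (hp : p ∈ C.B) {U V : Set C.X}
    (hU : IsClosed (U ∪ {p})) (hV : IsClosed (V ∪ {p})) (hd : Disjoint U V)
    (hUV : U ∪ V = C.B \ {p}) : IsConnected (U ∪ {p}) := by
  refine ⟨⟨p, Or.inr rfl⟩, ?_⟩
  have hpU : p ∉ U := fun h => (hUV ▸ (Or.inl h : p ∈ U ∪ V) : p ∈ C.B \ {p}).2 rfl
  have hpV : p ∉ V := fun h => (hUV ▸ (Or.inr h : p ∈ U ∪ V) : p ∈ C.B \ {p}).2 rfl
  have hsB : U ∪ {p} ⊆ C.B := by
    rintro z (hz | hz)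
    · exact (hUV ▸ (Or.inl hz : z ∈ U ∪ V) : z ∈ C.B \ {p}).1
    · rw [mem_singleton_iff.1 hz]
      exact hp
  rw [isPreconnected_closed_iff]
  intro t t' ht ht' hcov hne hne'
  by_contra hcon
  rw [Set.not_nonempty_iff_eq_empty] at hcon
  have main : ∀ t t' : Set C.X, IsClosed t → IsClosed t' → U ∪ {p} ⊆ t ∪ t' →
      ((U ∪ {p}) ∩ t').Nonempty → (U ∪ {p}) ∩ (t ∩ t') = ∅ → p ∈ t → False := by
    intro t t' ht ht' hcov hne' hcon hpt
    have hpt' : p ∉ t' := fun hp' => by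
      have : p ∈ (U ∪ {p}) ∩ (t ∩ t') := ⟨Or.inr rfl, hpt, hp'⟩
      rw [hcon] at this
      exact this
    have hsub : (U ∪ {p}) ∩ t' ⊆ U := by
      rintro z ⟨hz, hzt⟩
      rcases hz with hz | hz
      · exact hz
      · rw [mem_singleton_iff.1 hz] at hzt
        exact absurd hzt hpt'
    have hc := isPreconnected_closed_iff.1 hconn.isPreconnected
      ((U ∪ {p}) ∩ t') (((U ∪ {p}) ∩ t) ∪ (V ∪ {p})) (hU.inter ht') ((hU.inter ht).union hV)
      (by
        intro z hz
        by_cases hzp : z = p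
        · exact Or.inr (Or.inr (Or.inr hzp))
        · have hz' : z ∈ U ∪ V := by
            rw [hUV]
            exact ⟨hz, hzp⟩
          rcases hz' with hz' | hz'
          · rcases hcov (Or.inl hz') with h1 | h1
            · exact Or.inr (Or.inl ⟨Or.inl hz', h1⟩)
            · exact Or.inl ⟨Or.inl hz', h1⟩
          · exact Or.inr (Or.inr (Or.inl hz')))
      (by
        obtain ⟨z, hz⟩ := hne'
        exact ⟨z, hsB hz.1, hz⟩)
      ⟨p, hp, Or.inr (Or.inr rfl)⟩
    obtain ⟨z, -, hz1, hz2⟩ := hc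
    rcases hz2 with hz2 | hz2
    · have : z ∈ (U ∪ {p}) ∩ (t ∩ t') := ⟨hz1.1, hz2.2, hz1.2⟩
      rw [hcon] at this
      exact this
    · have hzU := hsub hz1
      rcases hz2 with hz2 | hz2
      · exact Set.disjoint_left.1 hd hzU hz2
      · rw [mem_singleton_iff.1 hz2] at hzU
        exact hpU hzU
  rcases hcov (Or.inr rfl : p ∈ U ∪ {p}) with hp' | hp'
  · exact main t t' ht ht' hcov hne' hcon hp'
  · exact main t' t ht' ht (by rwa [union_comm t' t]) hne (by rwa [inter_comm t' t]) hp'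

/-- a connected subset of `B` avoiding `y` lies on one side of every splitting at `y` -/
theorem s7a_conn_side {K U V : Set C.X} {y x : C.X} (hK : IsPreconnected K) (hKB : K ⊆ C.B)
    (hy : y ∉ K) (hU : IsClosed (U ∪ {y})) (hV : IsClosed (V ∪ {y})) (hd : Disjoint U V)
    (hUV : U ∪ V = C.B \ {y}) (hx : x ∈ K) (hxU : x ∈ U) : K ⊆ U := by
  intro z hz
  have hz' : z ∈ U ∪ V := by
    rw [hUV]
    exact ⟨hKB hz, fun h => hy (mem_singleton_iff.1 h ▸ hz)⟩
  rcases hz' with hz' | hz'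
  · exact hz'
  · exfalso
    have hc := isPreconnected_closed_iff.1 hK (U ∪ {y}) (V ∪ {y}) hU hV
      (by
        intro w hw
        have hw' : w ∈ U ∪ V := by
          rw [hUV]
          exact ⟨hKB hw, fun h => hy (mem_singleton_iff.1 h ▸ hw)⟩
        rcases hw' with hw' | hw'
        · exact Or.inl (Or.inl hw')
        · exact Or.inr (Or.inl hw'))
      ⟨x, hx, Or.inl hxU⟩ ⟨z, hz, Or.inl hz'⟩
    obtain ⟨w, hw, hw1, hw2⟩ := hc
    have hwy : w ≠ y := fun h => hy (h ▸ hw)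
    rcases hw1 with hw1 | hw1
    · rcases hw2 with hw2 | hw2
      · exact Set.disjoint_left.1 hd hw1 hw2
      · exact hwy hw2
    · exact hwy hw1

theorem s7a_asymm (hconn : IsConnected C.B) {q x y : C.X} (h : C.SepBy q x y) :
    ¬ C.SepBy y x q := by
  intro h'
  obtain ⟨-, -, -, -, hyq, -⟩ := s7a_mem h
  obtain ⟨hq, U, V, hU, hV, hd, hUV, hx, hy⟩ := h
  obtain ⟨-, U', V', hU', hV', hd', hUV', hx', hq'⟩ := h'
  have hK := s7a_side_connected hconn hq hU hV hd hUV
  have hKB : U ∪ {q} ⊆ C.B := by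
    rintro z (hz | hz)
    · exact (hUV ▸ (Or.inl hz : z ∈ U ∪ V) : z ∈ C.B \ {q}).1
    · rw [mem_singleton_iff.1 hz]
      exact hq
  have hyK : y ∉ U ∪ {q} := by
    rintro (h1 | h1)
    · exact Set.disjoint_left.1 hd h1 hy
    · exact hyq h1
  have hsub := s7a_conn_side hK.isPreconnected hKB hyK hU' hV' hd' hUV' (Or.inl hx) hx'
  exact Set.disjoint_left.1 hd' (hsub (Or.inr rfl)) hq'

theorem s7a_trans (hconn : IsConnected C.B) {a r q b : C.X} (h1 : C.SepBy q a b)
    (h2 : C.SepBy r a q) : C.SepBy r a b := by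
  obtain ⟨-, -, hbB, -, -, -⟩ := s7a_mem h1
  obtain ⟨hrB, -, -, -, hqr, -⟩ := s7a_mem h2
  have hbr : b ≠ r := by
    rintro rfl
    exact s7a_asymm hconn h1 h2
  rcases s7a_tri h2 hbB hbr with h3 | h3
  · exact h3
  · exfalso
    rcases s7a_tri h1 hrB (Ne.symm hqr) with h4 | h4
    · exact s7a_asymm hconn h2 h4
    · exact s7a_asymm hconn h3 (s7a_symm h4)

theorem s7a_trans' (hconn : IsConnected C.B) {a r q b : C.X} (h1 : C.SepBy q a b)
    (h2 : C.SepBy r a q) : C.SepBy q r b := by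
  obtain ⟨hrB, -, -, -, hqr, -⟩ := s7a_mem h2
  rcases s7a_tri h1 hrB (Ne.symm hqr) with h4 | h4
  · exact absurd h4 (s7a_asymm hconn h2)
  · exact h4

theorem s7a_Ic_subset (hconn : IsConnected C.B) {a b c : C.X} (hc : c ∈ C.Ic a b) :
    C.Ic a c ⊆ C.Ic a b ∧ C.Ic c b ⊆ C.Ic a b := by
  have hself : ∀ x : C.X, C.Sp x x = ∅ := by
    intro x
    ext q
    simp only [Cpt.Sp, mem_ofPred_eq, mem_empty_iff_false, iff_false]
    exact fun h => (s7a_mem h).2.2.2.2.2 rfl
  rcases hc with hc | hc | hc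
  · constructor
    · rintro r (hr | hr | hr)
      · exact Or.inl (s7a_trans hconn hc hr)
      · exact Or.inr (Or.inl hr)
      · rw [mem_singleton_iff.1 hr]
        exact Or.inl hc
    · rintro r (hr | hr | hr)
      · exact Or.inl (s7a_symm (s7a_trans hconn (s7a_symm hc) (s7a_symm hr)))
      · rw [hr]
        exact Or.inl hc
      · exact Or.inr (Or.inr hr)
  · subst hc
    refine ⟨?_, subset_rfl⟩
    rintro r (hr | hr | hr)
    · rw [hself] at hr
      exact absurd hr (notMem_empty _)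
    · exact Or.inr (Or.inl hr)
    · exact Or.inr (Or.inl hr)
  · rw [mem_singleton_iff.1 hc]
    refine ⟨subset_rfl, ?_⟩
    rintro r (hr | hr | hr)
    · rw [hself] at hr
      exact absurd hr (notMem_empty _)
    · exact Or.inr (Or.inr hr)
    · exact Or.inr (Or.inr hr)

theorem s7a_Ic_finite (hT : C.CutTree) {a b : C.X} (ha : C.IsCut a) (hb : C.IsCut b) :
    (C.Ic a b).Finite :=
  (hT.fin_sep a b ha hb).union (toFinite _)

theorem s7a_Ic_smul (g : Γ) {a b c : C.X} : g • c ∈ C.Ic (g • a) (g • b) ↔ c ∈ C.Ic a b := by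
  unfold Cpt.Ic Cpt.Sp
  simp only [mem_union, mem_ofPred_eq, mem_insert_iff, mem_singleton_iff, s7a_smul_iff,
    smul_left_cancel_iff]

theorem s7a_Ic_isCut {a b c : C.X} (ha : C.IsCut a) (hb : C.IsCut b) (hc : c ∈ C.Ic a b) :
    C.IsCut c := by
  rcases hc with hc | hc | hc
  · exact s7a_isCut_of_sepBy hc
  · rw [hc]
    exact ha
  · rw [mem_singleton_iff.1 hc]
    exact hb

theorem s7a_adj_symm {a b : C.X} (h : C.Adj a b) : C.Adj b a :=
  ⟨h.2.1, h.1, h.2.2.1.symm, fun q hq => h.2.2.2 q (s7a_symm hq)⟩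

theorem s7a_adj_smul (g : Γ) {a b : C.X} : C.Adj (g • a) (g • b) ↔ C.Adj a b := by
  unfold Cpt.Adj
  rw [s7a_isCut_smul, s7a_isCut_smul, Ne, smul_left_cancel_iff]
  refine and_congr_right fun _ => and_congr_right fun _ => and_congr_right fun _ => ?_
  constructor
  · intro h q hq
    exact h (g • q) (s7a_smul g hq)
  · intro h q hq
    apply h (g⁻¹ • q)
    have := s7a_smul g⁻¹ hq
    simpa only [inv_smul_smul] using this

theorem s7a_exists_adj (hconn : IsConnected C.B) (hT : C.CutTree) {a b : C.X} (ha : C.IsCut a)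
    (hb : C.IsCut b) (hab : a ≠ b) : ∃ c ∈ C.Ic a b, C.Adj a c := by
  have hfin : (C.Sp a b ∪ {b}).Finite := (hT.fin_sep a b ha hb).union (toFinite _)
  obtain ⟨c, hc, hmin⟩ := Set.exists_min_image (C.Sp a b ∪ {b}) (fun c => (C.Sp a c).ncard) hfin
    ⟨b, Or.inr rfl⟩
  have hcI : c ∈ C.Ic a b := by
    rcases hc with hc | hc
    · exact Or.inl hc
    · exact Or.inr (Or.inr hc)
  have hcc : C.IsCut c := s7a_Ic_isCut ha hb hcI
  have hac : a ≠ c := by
    rcases hc with hc | hc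
    · exact (s7a_mem hc).2.2.2.1
    · rw [mem_singleton_iff.1 hc]
      exact hab
  refine ⟨c, hcI, ha, hcc, hac, fun q hq => ?_⟩
  have hq' : q ∈ C.Sp a b ∪ {b} := by
    rcases hc with hc | hc
    · exact Or.inl (s7a_trans hconn hc hq)
    · rw [mem_singleton_iff.1 hc] at hq
      exact Or.inl hq
  have hlt : (C.Sp a q).ncard < (C.Sp a c).ncard := by
    apply Set.ncard_lt_ncard _ (hT.fin_sep a c ha hcc)
    refine ⟨fun r hr => s7a_trans hconn hq hr, fun hsub => ?_⟩
    exact (s7a_mem (hsub hq : C.SepBy q a q)).2.2.2.2.1 rfl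
  exact absurd (hmin q hq') (not_le.2 hlt)

theorem s7a_chain (hconn : IsConnected C.B) (hT : C.CutTree) {a b : C.X} (ha : C.IsCut a)
    (hb : C.IsCut b) :
    Relation.ReflTransGen (fun u v => C.Adj u v ∧ u ∈ C.Ic a b ∧ v ∈ C.Ic a b) a b := by
  induction hn : (C.Sp a b).ncard using Nat.strong_induction_on generalizing a with
  | _ n ih =>
    by_cases hab : a = b
    · rw [hab]
    · obtain ⟨c, hcI, hac⟩ := s7a_exists_adj hconn hT ha hb hab
      have haI : a ∈ C.Ic a b := Or.inr (Or.inl rfl)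
      refine Relation.ReflTransGen.head (b := c) ⟨hac, haI, hcI⟩ ?_
      have hsub := (s7a_Ic_subset hconn hcI).2
      have hcc : C.IsCut c := hac.2.1
      rcases hcI with hc | hc | hc
      · have hlt : (C.Sp c b).ncard < n := by
          rw [← hn]
          apply Set.ncard_lt_ncard _ (hT.fin_sep a b ha hb)
          refine ⟨fun r hr => s7a_symm (s7a_trans hconn (s7a_symm hc) (s7a_symm hr)), fun hs => ?_⟩
          exact (s7a_mem (hs hc : C.SepBy c c b)).2.2.2.1 rfl
        exact Relation.ReflTransGen.mono (fun u v h => ⟨h.1, hsub h.2.1, hsub h.2.2⟩) _ _ (ih _ hlt hcc rfl)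
      · exact absurd hc.symm hac.2.2.1
      · rw [mem_singleton_iff.1 hc]

/-! ### stars -/

theorem s7a_not_sepBy_self (q x : C.X) : ¬ C.SepBy q x x := fun h => (s7a_mem h).2.2.2.2.2 rfl

theorem s7a_isCut_mem_B {p : C.X} (h : C.IsCut p) : p ∈ C.B := by
  obtain ⟨x, y, h⟩ := h
  exact h.1

theorem s7a_star_mem {a b : C.X} (h : C.Adj a b) : a ∈ C.star a b ∧ b ∈ C.star a b :=
  ⟨⟨h.1, fun q => s7a_not_sepBy_self q a, h.2.2.2⟩,
    ⟨h.2.1, fun q hq => h.2.2.2 q (s7a_symm hq), fun q => s7a_not_sepBy_self q b⟩⟩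

theorem s7a_star_clique {a b c c' : C.X} (h : C.Adj a b) (hc : c ∈ C.star a b)
    (hc' : c' ∈ C.star a b) (hne : c ≠ c') : C.Adj c c' := by
  refine ⟨hc.1, hc'.1, hne, fun q hq => ?_⟩
  have key : ∀ x : C.X, C.IsCut x → (∀ q, ¬ C.SepBy q c x) → (∀ q, ¬ C.SepBy q c' x) → x = q := by
    intro x hx h1 h2
    by_contra hxq
    rcases s7a_tri hq (s7a_isCut_mem_B hx) hxq with h3 | h3
    · exact h1 q h3
    · exact h2 q (s7a_symm h3)
  exact h.2.2.1 ((key a h.1 hc.2.1 hc'.2.1).trans (key b h.2.1 hc.2.2 hc'.2.2).symm)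

theorem s7a_star_eq {a b c c' : C.X} (h : C.Adj a b) (hc : c ∈ C.star a b)
    (hc' : c' ∈ C.star a b) (hne : c ≠ c') : C.star c c' = C.star a b := by
  have sub : ∀ {a b c c' : C.X}, C.Adj a b → c ∈ C.star a b → c' ∈ C.star a b →
      C.star a b ⊆ C.star c c' := by
    intro a b c c' h hc hc' d hd
    refine ⟨hd.1, fun q hq => ?_, fun q hq => ?_⟩
    · by_cases hdc : d = c
      · rw [hdc] at hq
        exact s7a_not_sepBy_self q c hq
      · exact (s7a_star_clique h hd hc hdc).2.2.2 q hq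
    · by_cases hdc : d = c'
      · rw [hdc] at hq
        exact s7a_not_sepBy_self q c' hq
      · exact (s7a_star_clique h hd hc' hdc).2.2.2 q hq
  have hadj := s7a_star_clique h hc hc' hne
  have h1 := sub h hc hc'
  exact Subset.antisymm (sub hadj (h1 (s7a_star_mem h).1) (h1 (s7a_star_mem h).2)) h1

theorem s7a_forall_not_smul (g : Γ) {x y : C.X} :
    (∀ q, ¬ C.SepBy q (g • x) (g • y)) ↔ ∀ q, ¬ C.SepBy q x y := by
  constructor
  · intro h q hq
    exact h (g • q) (s7a_smul g hq)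
  · intro h q hq
    apply h (g⁻¹ • q)
    have := s7a_smul g⁻¹ hq
    simpa only [inv_smul_smul] using this

theorem s7a_star_smul (g : Γ) {a b c : C.X} : g • c ∈ C.star (g • a) (g • b) ↔ c ∈ C.star a b := by
  unfold Cpt.star
  simp only [mem_ofPred_eq, s7a_isCut_smul, s7a_forall_not_smul]

/-- an element carrying two distinct points of the star into the star stabilises it -/
theorem s7a_stab_of_pair {a b u v : C.X} (h : C.Adj a b) (g : Γ) (hu : u ∈ C.star a b)
    (hv : v ∈ C.star a b) (huv : u ≠ v) (hgu : g • u ∈ C.star a b) (hgv : g • v ∈ C.star a b) :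
    g ∈ C.stab (C.star a b) := by
  intro c
  have h1 : C.star (g • u) (g • v) = C.star a b :=
    s7a_star_eq h hgu hgv fun e => huv (smul_left_cancel g e)
  have h2 : C.star u v = C.star a b := s7a_star_eq h hu hv huv
  rw [← h1, s7a_star_smul, h2, h1]

/-! ### gates and the projection -/

theorem s7a_gate_exists (hconn : IsConnected C.B) (hT : C.CutTree) {a b p : C.X} (h : C.Adj a b)
    (hp : C.IsCut p) : ∃ c, C.IsGate (C.star a b) p c := by
  by_cases hpR : p ∈ C.star a b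
  · exact ⟨p, hpR, Or.inl rfl⟩
  -- a point of the star which separates `p` from `a` (or from `b`) is the gate
  have gate_of : ∀ {a b c : C.X}, C.Adj a b → c ∈ C.star a b → C.SepBy c p a →
      C.IsGate (C.star a b) p c := by
    intro a b c _ hc hs
    refine ⟨hc, Or.inr fun c' hc' hne => ?_⟩
    rcases s7a_tri hs (s7a_isCut_mem_B hc'.1) hne with h1 | h1
    · exact h1
    · exact absurd h1 (hc'.2.1 c)
  have hstar_comm : C.star b a = C.star a b := by
    ext c
    simp only [Cpt.star, mem_ofPred_eq]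
    tauto
  by_cases hb : C.SepBy b p a
  · exact ⟨b, gate_of h (s7a_star_mem h).2 hb⟩
  by_cases ha : C.SepBy a p b
  · refine ⟨a, ?_⟩
    have := gate_of (s7a_adj_symm h) (s7a_star_mem (s7a_adj_symm h)).2 ha
    rwa [hstar_comm] at this
  -- `Sp p a = Sp p b`
  have hab : ∀ q, C.SepBy q p a → C.SepBy q p b := by
    intro q hq
    have hbq : b ≠ q := by
      rintro rfl
      exact hb hq
    rcases s7a_tri hq (s7a_isCut_mem_B h.2.1) hbq with h1 | h1
    · exact h1
    · exact absurd (s7a_symm h1) (h.2.2.2 q)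
  have hba : ∀ q, C.SepBy q p b → C.SepBy q p a := by
    intro q hq
    have haq : a ≠ q := by
      rintro rfl
      exact ha hq
    rcases s7a_tri hq (s7a_isCut_mem_B h.1) haq with h1 | h1
    · exact h1
    · exact absurd h1 (h.2.2.2 q)
  have hne : (C.Sp p a).Nonempty := by
    by_contra hemp
    rw [Set.not_nonempty_iff_eq_empty] at hemp
    apply hpR
    refine ⟨hp, fun q hq => ?_, fun q hq => ?_⟩
    · have : q ∈ C.Sp p a := hq
      rw [hemp] at this
      exact this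
    · have : q ∈ C.Sp p a := hba q hq
      rw [hemp] at this
      exact this
  obtain ⟨c, hc, hmin⟩ := Set.exists_min_image (C.Sp p a) (fun c => (C.Sp c a).ncard)
    (hT.fin_sep p a hp h.1) hne
  have hcc : C.IsCut c := s7a_isCut_of_sepBy hc
  have hca : ∀ r, ¬ C.SepBy r c a := by
    intro r hr
    have hr' : r ∈ C.Sp p a := s7a_symm (s7a_trans hconn (s7a_symm hc) (s7a_symm hr))
    have hlt : (C.Sp r a).ncard < (C.Sp c a).ncard := by
      apply Set.ncard_lt_ncard _ (hT.fin_sep c a hcc h.1)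
      refine ⟨fun t ht => s7a_symm (s7a_trans hconn (s7a_symm hr) (s7a_symm ht)), fun hs => ?_⟩
      exact (s7a_mem (hs hr : C.SepBy r r a)).2.2.2.1 rfl
    exact absurd (hmin r hr') (not_le.2 hlt)
  have hcb : ∀ t, ¬ C.SepBy t c b := by
    intro t ht
    have hat : a ≠ t := by
      rintro rfl
      exact ha (s7a_symm (s7a_trans hconn (s7a_symm (hab c hc)) (s7a_symm ht)))
    rcases s7a_tri ht (s7a_isCut_mem_B h.1) hat with h1 | h1
    · exact hca t h1
    · exact h.2.2.2 t h1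
  exact ⟨c, gate_of h ⟨hcc, hca, hcb⟩ hc⟩

theorem s7a_gate_unique (hconn : IsConnected C.B) {a b p c c' : C.X} (h : C.Adj a b)
    (hc : C.IsGate (C.star a b) p c) (hc' : C.IsGate (C.star a b) p c') : c = c' := by
  by_contra hne
  obtain ⟨hcR, hc⟩ := hc
  obtain ⟨hcR', hc'⟩ := hc'
  rcases hc with hc | hc
  · rcases hc' with hc' | hc'
    · exact hne (hc.symm.trans hc')
    · have := hc' c hcR hne
      rw [hc] at this
      exact s7a_not_sepBy_self _ _ this
  · rcases hc' with hc' | hc'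
    · have := hc c' hcR' (Ne.symm hne)
      rw [hc'] at this
      exact s7a_not_sepBy_self _ _ this
    · exact s7a_asymm hconn (hc c' hcR' (Ne.symm hne)) (hc' c hcR hne)

theorem s7a_proj_gate (hconn : IsConnected C.B) (hT : C.CutTree) {a b p : C.X} (h : C.Adj a b)
    (hp : C.IsCut p) : C.IsGate (C.star a b) p (C.proj (C.star a b) p) := by
  have hex := s7a_gate_exists hconn hT h hp
  unfold Cpt.proj
  rw [dif_pos hex]
  exact hex.choose_spec

theorem s7a_proj_of_mem (hconn : IsConnected C.B) {a b p : C.X} (h : C.Adj a b)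
    (hp : p ∈ C.star a b) : C.proj (C.star a b) p = p := by
  have hex : ∃ c, C.IsGate (C.star a b) p c := ⟨p, hp, Or.inl rfl⟩
  have h1 : C.IsGate (C.star a b) p (C.proj (C.star a b) p) := by
    unfold Cpt.proj
    rw [dif_pos hex]
    exact hex.choose_spec
  exact s7a_gate_unique hconn h h1 ⟨hp, Or.inl rfl⟩

/-- an edge between adjacent cut points is either inside the star or collapsed by the projection -/
theorem s7a_proj_adj (hconn : IsConnected C.B) (hT : C.CutTree) {a b u v : C.X} (h : C.Adj a b)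
    (huv : C.Adj u v) :
    (u ∈ C.star a b ∧ v ∈ C.star a b) ∨ C.proj (C.star a b) u = C.proj (C.star a b) v := by
  have main : ∀ {u v : C.X}, C.Adj u v → u ∉ C.star a b →
      C.proj (C.star a b) u = C.proj (C.star a b) v := by
    intro u v huv hu
    obtain ⟨hcR, hc⟩ := s7a_proj_gate hconn hT h huv.1
    set c := C.proj (C.star a b) u with hcdef
    have hc' : ∀ c' ∈ C.star a b, c' ≠ c → C.SepBy c u c' := by
      rcases hc with hc | hc
      · exact absurd (hc ▸ hcR) hu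
      · exact hc
    by_cases hvc : v = c
    · rw [hvc, s7a_proj_of_mem hconn h hcR]
    · have hg : C.IsGate (C.star a b) v c := by
        refine ⟨hcR, Or.inr fun c' hcR' hne => ?_⟩
        rcases s7a_tri (hc' c' hcR' hne) (s7a_isCut_mem_B huv.2.1) hvc with h1 | h1
        · exact absurd h1 (huv.2.2.2 c)
        · exact h1
      exact s7a_gate_unique hconn h hg (s7a_proj_gate hconn hT h huv.2.1)
  by_cases hu : u ∈ C.star a b
  · by_cases hv : v ∈ C.star a b
    · exact Or.inl ⟨hu, hv⟩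
    · exact Or.inr (main (s7a_adj_symm huv) hv).symm
  · exact Or.inr (main huv hu)

/-! ### consequences of minimality -/

/-- there is more than one cut point as soon as there is one -/
theorem s7a_exists_ne (hC : C.Good) {p : C.X} (hp : C.IsCut p) : ∃ q, C.IsCut q ∧ q ≠ p := by
  have hpB := s7a_isCut_mem_B hp
  obtain ⟨x, hx, hxp⟩ := hC.nontriv.exists_ne p
  have hcl := hC.minimal p hpB hx
  rw [mem_closure_iff] at hcl
  obtain ⟨z, hz, g, rfl⟩ := hcl {p}ᶜ isOpen_compl_singleton hxp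
  exact ⟨g • p, (s7a_isCut_smul g).2 hp, hz⟩

/-- cut points are dense in `B` as soon as there is one -/
theorem s7a_cut_dense (hC : C.Good) {p : C.X} (hp : C.IsCut p) : C.B ⊆ closure {q | C.IsCut q} := by
  refine (hC.minimal p (s7a_isCut_mem_B hp)).trans (closure_mono ?_)
  rintro _ ⟨g, rfl⟩
  exact (s7a_isCut_smul g).2 hp

/-- every cut point lies on a translate of some `[p₀, s p₀]`
(both sides of `q` contain orbit points `g p₀`, `g' p₀`; walk from `g` to `g'` in the Cayley graph). -/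
theorem s7a_cut_cover (hC : C.Good) {p₀ q : C.X} (hp : C.IsCut p₀) (hq : C.IsCut q) :
    ∃ g : Γ, ∃ s ∈ 𝔖.S, q ∈ C.Ic (g • p₀) ((g * s) • p₀) := by
  have hpB := s7a_isCut_mem_B hp
  obtain ⟨x, y, hqB, U, V, hU, hV, hd, hUV, hx, hy⟩ := hq
  -- both sides contain orbit points
  have orbit : ∀ {U V : Set C.X} {x : C.X}, IsClosed (V ∪ {q}) → U ∪ V = C.B \ {q} → x ∈ U →
      Disjoint U V → ∃ g : Γ, g • p₀ ∈ U := by
    intro U V x hV hUV hx hd
    have hx' : x ∈ C.B \ {q} := hUV ▸ Or.inl hx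
    have hcl := hC.minimal p₀ hpB hx'.1
    rw [mem_closure_iff] at hcl
    obtain ⟨z, hz, g, rfl⟩ := hcl (V ∪ {q})ᶜ hV.isOpen_compl (by
      rintro (h1 | h1)
      · exact Set.disjoint_left.1 hd hx h1
      · exact hx'.2 h1)
    refine ⟨g, ?_⟩
    have hz' : g • p₀ ∈ U ∪ V := by
      rw [hUV]
      exact ⟨(s7a_smul_mem_B C g).2 hpB, fun h1 => hz (Or.inr h1)⟩
    exact hz'.resolve_right fun h1 => hz (Or.inl h1)
  obtain ⟨g, hg⟩ := orbit hV hUV hx hd
  obtain ⟨g', hg'⟩ := orbit hU (by rw [union_comm]; exact hUV) hy hd.symm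
  by_contra hno
  push Not at hno
  have step : ∀ k : Γ, ∀ s ∈ 𝔖.S, k • p₀ ∈ U → (k * s) • p₀ ∈ U := by
    intro k s hs hk
    have h1 := hno k s hs
    have hne : (k * s) • p₀ ≠ q := fun e => h1 (Or.inr (Or.inr e.symm))
    have h2 : (k * s) • p₀ ∈ U ∪ V := by
      rw [hUV]
      exact ⟨(s7a_smul_mem_B C _).2 hpB, hne⟩
    refine h2.resolve_right fun h3 => h1 (Or.inl ?_)
    exact ⟨hqB, U, V, hU, hV, hd, hUV, hk, h3⟩
  let K : Subgroup Γ :=
    { carrier := {m | ∀ k : Γ, k • p₀ ∈ U ↔ (k * m) • p₀ ∈ U}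
      mul_mem' := by
        intro m m' hm hm' k
        rw [← mul_assoc]
        exact (hm k).trans (hm' (k * m))
      one_mem' := by
        intro k
        rw [mul_one]
      inv_mem' := by
        intro m hm k
        have := hm (k * m⁻¹)
        rw [inv_mul_cancel_right] at this
        exact this.symm }
  have hK : K = ⊤ := by
    rw [eq_top_iff, ← 𝔖.closure_eq, Subgroup.closure_le]
    intro s hs k
    refine ⟨step k s hs, fun h1 => ?_⟩
    have := step (k * s) s⁻¹ (𝔖.inv_mem s hs) h1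
    rwa [mul_inv_cancel_right] at this
  have hmem : g⁻¹ * g' ∈ K := by
    rw [hK]
    exact Subgroup.mem_top _
  have h1 := (hmem g).1 hg
  rw [mul_inv_cancel_left] at h1
  exact Set.disjoint_left.1 hd h1 hg'

/-- stabilisers of cut points are infinite -/
theorem s7a_cut_stab_infinite (hC : C.Good) (hT : C.CutTree) {p : C.X} (hp : C.IsCut p) :
    {h : Γ | h • p = p}.Infinite := by
  obtain ⟨q, hq, hqp⟩ := s7a_exists_ne hC hp
  obtain ⟨c, -, hc⟩ := s7a_exists_adj hC.conn hT hp hq (Ne.symm hqp)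
  exact (hT.edge_inf p c hc.1 hc.2.1 hc.2.2.1 hc.2.2.2).mono fun h hh => hh.1

/-- vertex stabilisers in `H = stab R` are infinite -/
theorem s7a_star_stab_infinite (hC : C.Good) (hT : C.CutTree) {a b p : C.X} (h : C.Adj a b)
    (hp : p ∈ C.star a b) : {k : Γ | k ∈ C.stab (C.star a b) ∧ k • p = p}.Infinite := by
  obtain ⟨p', hp', hne⟩ : ∃ p' ∈ C.star a b, p ≠ p' := by
    by_cases hpa : p = a
    · exact ⟨b, (s7a_star_mem h).2, hpa ▸ h.2.2.1⟩
    · exact ⟨a, (s7a_star_mem h).1, hpa⟩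
  have hadj := s7a_star_clique h hp hp' hne
  have hst := s7a_star_eq h hp hp' hne
  refine (hT.edge_inf p p' hadj.1 hadj.2.1 hadj.2.2.1 hadj.2.2.2).mono ?_
  rintro k ⟨hk1, hk2⟩
  refine ⟨?_, hk1⟩
  have hadj' : C.Adj p (k • p') := by
    have := (s7a_adj_smul k).2 hadj
    rwa [hk1] at this
  have hkp' : k • p' ∈ C.star a b := by
    rw [← hst]
    exact ⟨hadj'.2.1, fun q hq => hadj'.2.2.2 q (s7a_symm hq), hk2⟩
  exact s7a_stab_of_pair h k hp hp' hne (by rw [hk1]; exact hp) hkp'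

end Claimed.Agent.R309
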